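import Mathlib

/-!
# The choice of the number of steps
-/

namespace Vale.Agent.P184.H115

open Real

/-- The choice of `k` in the bound of the traces. -/
theorem opt {a P A R : ℝ} (hP : 0 ≤ P) (hA : 0 < A) (hR : 0 < R)
    (h : ∀ k : ℕ, a ≤ P * (A * √k / R) ^ k) :
    a ≤ P * exp 1 * exp (-(R / (exp 1 * A)) ^ 2) := by
  set T : ℝ := (R / (exp 1 * A)) ^ 2 with hT
  have hT0 : 0 ≤ T := sq_nonneg _
  set k : ℕ := ⌊T⌋₊ with hk
  have h1 : (k : ℝ) ≤ T := Nat.floor_le hT0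
  have h2 : T < k + 1 := Nat.lt_floor_add_one T
  have h3 : √(k : ℝ) ≤ R / (exp 1 * A) := by
    refine (Real.sqrt_le_sqrt h1).trans (le_of_eq ?_)
    rw [hT, Real.sqrt_sq (by positivity)]
  have h4 : A * √k / R ≤ exp (-1) := by
    have h5 : A * √k / R ≤ A * (R / (exp 1 * A)) / R := by gcongr
    refine h5.trans (le_of_eq ?_)
    rw [exp_neg]
    field_simp
  calc a ≤ P * (A * √k / R) ^ k := h k
    _ ≤ P * exp (-1) ^ k := by gcongr
    _ = P * exp (-(k : ℝ)) := by rw [← exp_nat_mul]; ring_nf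
    _ ≤ P * exp (1 - T) := by
      refine mul_le_mul_of_nonneg_left (exp_le_exp.2 ?_) hP
      linarith
    _ = P * exp 1 * exp (-(R / (exp 1 * A)) ^ 2) := by
      rw [mul_assoc, ← exp_add, ← hT, sub_eq_add_neg]

/-- A quantity bounded by `C Λ R exp (-c R^2)` for arbitrarily large `R`, with `Λ` of size at most
`exp (ε R^2)` for all `ε > 0`, is not positive. -/
theorem nonpos_of_gauss {a C c : ℝ} (hc : 0 < c) (hC : 0 ≤ C)
    (h : ∀ R0 : ℝ, ∃ R Λ : ℝ, R0 ≤ R ∧ 1 ≤ R ∧ Λ ≤ exp (c / 4 * R ^ 2) ∧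
      a ≤ C * Λ * R * exp (-(c * R ^ 2))) : a ≤ 0 := by
  by_contra ha
  push_neg at ha
  -- choose `R0` with `C * exp (-(c/2) R^2) < a` for `R ≥ R0`
  obtain ⟨R, Λ, hR0, hR1, hΛ, hb⟩ := h (max (4 / c) (4 / c * (C / a)))
  have hcR : 4 ≤ c * R := by
    have h1 : 4 / c ≤ R := (le_max_left _ _).trans hR0
    rw [div_le_iff₀ hc] at h1
    linarith
  have hcR2 : C / a ≤ c / 4 * R := by
    have h1 : 4 / c * (C / a) ≤ R := (le_max_right _ _).trans hR0
    have h2 : c / 4 * (4 / c * (C / a)) ≤ c / 4 * R := mul_le_mul_of_nonneg_left h1 (by positivity)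
    calc C / a = c / 4 * (4 / c * (C / a)) := by field_simp
      _ ≤ _ := h2
  have hRpos : 0 < R := by linarith
  have hRe : R ≤ exp (c / 4 * R ^ 2) := by
    have h1 : R ≤ c / 4 * R ^ 2 := by nlinarith
    exact h1.trans (by linarith [add_one_le_exp (c / 4 * R ^ 2)])
  have h3 : C * Λ * R * exp (-(c * R ^ 2)) ≤ C * exp (-(c / 2 * R ^ 2)) := by
    calc C * Λ * R * exp (-(c * R ^ 2))
        ≤ C * exp (c / 4 * R ^ 2) * exp (c / 4 * R ^ 2) * exp (-(c * R ^ 2)) := by gcongr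
      _ = C * exp (-(c / 2 * R ^ 2)) := by
        rw [mul_assoc, mul_assoc, ← exp_add, ← exp_add]
        ring_nf
  have h4 : c / 4 * R < exp (c / 2 * R ^ 2) := by
    have h5 : c / 4 * R ≤ c / 2 * R ^ 2 := by nlinarith
    linarith [add_one_le_exp (c / 2 * R ^ 2)]
  have h6 : C / a < exp (c / 2 * R ^ 2) := lt_of_le_of_lt hcR2 h4
  have h7 : C * exp (-(c / 2 * R ^ 2)) < a := by
    rw [exp_neg, ← div_eq_mul_inv, div_lt_iff₀ (exp_pos _)]
    rwa [div_lt_iff₀ ha, mul_comm] at h6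
  linarith

end Vale.Agent.P184.H115
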