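import Vale.Agent.P184.H115.EstA
import Vale.Agent.P184.H115.Opt
import Vale.Agent.P184.H250.Decay2
import Vale.Agent.P184.AG.Defs

/-!
# The Gaussian bound of the traces, for all groups
-/

namespace Vale.Agent.P184.H115

open Vale.Agent.P184.H38 Vale.Agent.P184.H505 Vale.Agent.P184.Un Vale.Agent.P184.H250

universe u

theorem N0_nonneg {G : Type*} [Group G] {q : ℕ} (e : Mat G q) : 0 ≤ N0 e :=
  Finset.sum_nonneg fun _ _ => Finset.sum_nonneg fun _ _ => tsum_nonneg fun _ => norm_nonneg _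

theorem N1_nonneg {G : Type*} [Group G] {q : ℕ} (e : Mat G q) (L : G → ℝ) : 0 ≤ N1 e L :=
  Finset.sum_nonneg fun _ _ => Finset.sum_nonneg fun _ _ => tsum_nonneg fun _ =>
    mul_nonneg (norm_nonneg _) (Real.sqrt_nonneg _)

/-- The Gaussian bound, with a free constant. -/
theorem gaussA' {G : Type*} [Group G] {L : G → ℝ} (hL : IsLen L) {q : ℕ} (e : Mat G q)
    (he : IsIdem e) (h1 : ∀ i j, Summable fun g => ‖e i j g‖ * √(L g)) (C : ConjClasses G) {D : ℝ}
    (hD : 0 < D) (hC : ∀ g ∈ C.carrier, D ≤ L g) {A : ℝ} (hA : 0 < A)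
    (hA1 : 4 * √2 * (N0 e * N1 e L ^ 2) ≤ A) :
    ‖tau C e‖ ≤ N0 e * Real.exp 1 * Real.exp (-(D / (Real.exp 1 * A)) ^ 2) := by
  obtain ⟨x, rfl⟩ := ConjClasses.exists_rep C
  have hx : ∀ p : G, D ≤ L (p⁻¹ * x * p) := fun p => hC _ (by
    rw [ConjClasses.mem_carrier_iff_mk_eq]
    rw [ConjClasses.mk_eq_mk_iff_isConj, isConj_comm, isConj_iff]
    exact ⟨p⁻¹, by rw [inv_inv]⟩)
  obtain ⟨P, hP⟩ := estA hL hD hx
  refine opt (N0_nonneg e) hA hD fun k => ?_
  have h2 := P.bound e he (fun g => √(L g)) (fun _ => Real.sqrt_nonneg _) h1 k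
    ((4 * √(2 * k) / D) ^ k) (by positivity) (hP k)
  refine h2.trans ?_
  have hN0 := N0_nonneg e
  have hN1 := N1_nonneg e L
  change (4 * √(2 * k) / D) ^ k * N0 e ^ (k + 1) * N1 e L ^ (2 * k) ≤ _
  have e1 : (4 * √(2 * k) / D) ^ k * N0 e ^ (k + 1) * N1 e L ^ (2 * k) =
      N0 e * (4 * √2 * (N0 e * N1 e L ^ 2) * √k / D) ^ k := by
    rw [Real.sqrt_mul (by norm_num), pow_succ, pow_mul]
    rw [show (4 * (√2 * √(k : ℝ)) / D) ^ k * (N0 e ^ k * N0 e) * (N1 e L ^ 2) ^ k =
      N0 e * ((4 * (√2 * √(k : ℝ)) / D) ^ k * N0 e ^ k * (N1 e L ^ 2) ^ k) by ring, ← mul_pow,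
      ← mul_pow]
    congr 2
    ring
  rw [e1]
  gcongr

/-- **The Gaussian bound of the traces.** -/
theorem gaussA {G : Type*} [Group G] {L : G → ℝ} (hL : IsLen L) {q : ℕ} (e : Mat G q)
    (he : IsIdem e) (h1 : ∀ i j, Summable fun g => ‖e i j g‖ * √(L g)) (C : ConjClasses G) {D : ℝ}
    (hD : 0 < D) (hC : ∀ g ∈ C.carrier, D ≤ L g) :
    ‖tau C e‖ ≤ Real.exp 1 * N0 e * Real.exp (-(D / (16 * N0 e * N1 e L ^ 2)) ^ 2) := by
  rcases (mul_nonneg (N0_nonneg e) (sq_nonneg (N1 e L))).eq_or_lt with h0 | h0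
  · have h2 := gaussA' hL e he h1 C hD hC (A := 1) one_pos (by rw [← h0]; norm_num)
    have e1 : 16 * N0 e * N1 e L ^ 2 = 0 := by rw [mul_assoc, ← h0, mul_zero]
    rw [e1, div_zero]
    refine h2.trans ?_
    have h3 : Real.exp (-(D / (Real.exp 1 * 1)) ^ 2) ≤ Real.exp (-(0 : ℝ) ^ 2) := by
      refine Real.exp_le_exp.2 ?_
      rw [zero_pow two_ne_zero]
      exact neg_le_neg (sq_nonneg _)
    have := N0_nonneg e
    rw [mul_comm (Real.exp 1) (N0 e)]
    exact mul_le_mul_of_nonneg_left h3 (mul_nonneg this (Real.exp_pos _).le)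
  · have h2 := gaussA' hL e he h1 C hD hC (A := 4 * √2 * (N0 e * N1 e L ^ 2)) (by positivity) le_rfl
    refine h2.trans ?_
    have h3 : Real.exp 1 * (4 * √2 * (N0 e * N1 e L ^ 2)) ≤ 16 * N0 e * N1 e L ^ 2 := by
      have h4 : Real.exp 1 * (4 * √2) ≤ 16 := by
        have h5 : √2 ≤ 1.4143 := by
          rw [Real.sqrt_le_left (by norm_num)]
          norm_num
        have h6 := Real.exp_one_lt_d9
        nlinarith [Real.sqrt_nonneg 2, Real.exp_pos 1]
      calc Real.exp 1 * (4 * √2 * (N0 e * N1 e L ^ 2)) =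
          Real.exp 1 * (4 * √2) * (N0 e * N1 e L ^ 2) := by ring
        _ ≤ 16 * (N0 e * N1 e L ^ 2) := by gcongr
        _ = _ := by ring
    have h5 : D / (16 * N0 e * N1 e L ^ 2) ≤ D / (Real.exp 1 * (4 * √2 * (N0 e * N1 e L ^ 2))) := by
      gcongr
    have h6 : 0 ≤ D / (16 * N0 e * N1 e L ^ 2) := by
      have := N0_nonneg e
      positivity
    have := N0_nonneg e
    rw [mul_comm (Real.exp 1) (N0 e)]
    gcongr

/-- The half moment with respect to `L` is finite. -/
theorem moment_len {G : Type*} [Group G] {L : G → ℝ} (hL : IsLen L) {q : ℕ} {S : Finset G}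
    {f : Mat G q} (h0 : ∀ i j g, (¬ ∃ n, IsWd S n g) → f i j g = 0)
    (h1 : ∀ i j, Summable fun g => ‖f i j g‖ * Real.exp (1 * wl S g)) :
    ∃ l : ℝ, 0 < l ∧ (∀ g, (∃ n, IsWd S n g) → L g ≤ l * wl S g) ∧
      ∀ i j, Summable fun g => ‖f i j g‖ * √(L g) := by
  have hL0 := IsLen.nonneg hL
  set l : ℝ := 1 + ∑ s ∈ S, L s with hl
  have hl1 : 1 ≤ l := by
    have : 0 ≤ ∑ s ∈ S, L s := Finset.sum_nonneg fun s _ => hL0 s
    linarith
  have hs : ∀ s ∈ S, L s ≤ l := fun s hs => by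
    have := Finset.single_le_sum (fun s _ => hL0 s) hs
    linarith
  have hlist : ∀ t : List G, (∀ y ∈ t, y ∈ S) → L t.prod ≤ l * t.length := by
    intro t
    induction t with
    | nil => intro _; simp [hL.1]
    | cons a t ih =>
      intro h
      have h2 := ih fun y hy => h y (List.mem_cons_of_mem _ hy)
      have h3 := hs a (h a List.mem_cons_self)
      rw [List.prod_cons, List.length_cons]
      push_cast
      linarith [hL.2.2 a t.prod]
  have hw : ∀ g, (∃ n, IsWd S n g) → L g ≤ l * wl S g := by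
    intro g hg
    obtain ⟨t, t1, t2, t3⟩ := wl_spec hg
    have h2 := hlist t t2
    rw [t1, t3] at h2
    exact h2
  refine ⟨l, by linarith, hw, fun i j => ?_⟩
  refine Summable.of_nonneg_of_le (fun g => by positivity) (fun g => ?_) ((h1 i j).mul_left l)
  by_cases hg : ∃ n, IsWd S n g
  · have h2 : √(L g) ≤ l * Real.exp (1 * wl S g) := by
      have h3 : L g ≤ l * Real.exp (1 * wl S g) := by
        refine (hw g hg).trans ?_
        gcongr
        linarith [Real.add_one_le_exp (1 * (wl S g : ℝ))]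
      have h4 : 1 ≤ l * Real.exp (1 * wl S g) := by
        have : 1 ≤ Real.exp (1 * (wl S g : ℝ)) := Real.one_le_exp (by positivity)
        nlinarith
      rw [Real.sqrt_le_left (by linarith)]
      nlinarith
    calc ‖f i j g‖ * √(L g) ≤ ‖f i j g‖ * (l * Real.exp (1 * wl S g)) := by gcongr
      _ = _ := by ring
  · rw [h0 i j g hg, norm_zero, zero_mul, zero_mul, mul_zero]

/-- **The Gaussian bound**, for all idempotents and all length functions. -/
theorem gaussLen {G : Type u} [Group G] {q : ℕ} (e : Mat G q) (he : IsIdem e) {L : G → ℝ}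
    (hL : IsLen L) : ∃ c K : ℝ, 0 < c ∧ ∀ (C : ConjClasses G) (D : ℝ), 0 < D →
      (∀ g ∈ C.carrier, D ≤ L g) → ‖tau C e‖ ≤ K * Real.exp (-(c * D ^ 2)) := by
  obtain ⟨S, f, -, -, -, h4, h5, h6, h7⟩ := exists_decay e he (β := 1) zero_le_one ∅
  obtain ⟨l, -, -, h8⟩ := moment_len hL h6 h7
  set A : ℝ := 4 * √2 * (N0 f * N1 f L ^ 2) + 1 with hA
  have hA0 : 0 < A := by
    have := N0_nonneg f
    positivity
  refine ⟨1 / (Real.exp 1 * A) ^ 2, N0 f * Real.exp 1, by positivity, fun C D hD hC => ?_⟩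
  rw [← h5 C]
  have h9 := gaussA' hL f h4 h8 C hD hC hA0 (by linarith)
  rw [div_pow] at h9
  refine h9.trans (le_of_eq ?_)
  congr 2
  ring

open Classical in
/-- The word length, truncated at `n`, with value `n` off the subgroup. -/
noncomputable def Ln {G : Type*} [Group G] (S : Finset G) (n : ℕ) (g : G) : ℝ :=
  if ∃ m, IsWd S m g then min (wl S g : ℝ) n else n

theorem Ln_le {G : Type*} [Group G] (S : Finset G) (n : ℕ) (g : G) : Ln S n g ≤ n := by
  unfold Ln
  split_ifs
  · exact min_le_right _ _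
  · exact le_rfl

theorem Ln_nonneg {G : Type*} [Group G] (S : Finset G) (n : ℕ) (g : G) : 0 ≤ Ln S n g := by
  unfold Ln
  split_ifs <;> positivity

theorem isLen_Ln {G : Type*} [Group G] {S : Finset G} (hS : ∀ s ∈ S, s⁻¹ ∈ S) (n : ℕ) : IsLen (Ln S n) := by
  refine ⟨?_, fun g => ?_, fun g h => ?_⟩
  · unfold Ln
    rw [if_pos ⟨0, isWd_one S⟩, wl_one]
    simp
  · unfold Ln
    rw [wl_inv hS]
    by_cases hg : ∃ m, IsWd S m g
    · rw [if_pos hg, if_pos ((exWd_inv hS).2 hg)]
    · rw [if_neg hg, if_neg fun h => hg ((exWd_inv hS).1 h)]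
  · by_cases hg : ∃ m, IsWd S m g
    · by_cases hh : ∃ m, IsWd S m h
      · have hgh : ∃ m, IsWd S m (g * h) := (exWd_mul_right hS g hh).2 hg
        unfold Ln
        rw [if_pos hg, if_pos hh, if_pos hgh]
        have h1 : (wl S (g * h) : ℝ) ≤ wl S g + wl S h := by exact_mod_cast wl_mul hg hh
        have h2 : (0 : ℝ) ≤ wl S g := Nat.cast_nonneg _
        have h3 : (0 : ℝ) ≤ wl S h := Nat.cast_nonneg _
        have h4 : (0 : ℝ) ≤ n := Nat.cast_nonneg _
        rcases le_total (wl S g : ℝ) n with ha | ha <;> rcases le_total (wl S h : ℝ) n with hb | hb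
        · rw [min_eq_left ha, min_eq_left hb]
          exact (min_le_left _ _).trans h1
        · rw [min_eq_left ha, min_eq_right hb]
          exact (min_le_right _ _).trans (by linarith)
        · rw [min_eq_right ha, min_eq_left hb]
          exact (min_le_right _ _).trans (by linarith)
        · rw [min_eq_right ha, min_eq_right hb]
          exact (min_le_right _ _).trans (by linarith)
      · have h1 : Ln S n h = n := by
          unfold Ln
          rw [if_neg hh]
        rw [h1]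
        exact (Ln_le S n _).trans (by linarith [Ln_nonneg S n g])
    · have h1 : Ln S n g = n := by
        unfold Ln
        rw [if_neg hg]
      rw [h1]
      exact (Ln_le S n _).trans (by linarith [Ln_nonneg S n h])

/-- **The Gaussian bound**, for words. -/
theorem gaussWord {G : Type u} [Group G] {q : ℕ} (e : Mat G q) (he : IsIdem e) :
    ∃ (S : Finset G) (c K : ℝ), 0 < c ∧ ∀ (C : ConjClasses G) (n : ℕ),
      (∀ l : List G, l.length ≤ n → (∀ y ∈ l, y ∈ S) → l.prod ∉ C.carrier) →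
        ‖tau C e‖ ≤ K * Real.exp (-(c * (n : ℝ) ^ 2)) := by
  obtain ⟨S, f, -, -, h3, h4, h5, h6, h7⟩ := exists_decay e he (β := 1) zero_le_one ∅
  have h8 : ∀ i j, Summable fun g => ‖f i j g‖ * (wl S g : ℝ) := fun i j => by
    refine Summable.of_nonneg_of_le (fun g => by positivity) (fun g => ?_) (h7 i j)
    refine mul_le_mul_of_nonneg_left ?_ (norm_nonneg _)
    have := Real.add_one_le_exp (1 * (wl S g : ℝ))
    linarith
  set m : ℝ := ∑ i, ∑ j, ∑' g, ‖f i j g‖ * (wl S g : ℝ) with hm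
  have hm0 : 0 ≤ m := Finset.sum_nonneg fun _ _ => Finset.sum_nonneg fun _ _ =>
    tsum_nonneg fun _ => by positivity
  have hle : ∀ (n : ℕ) i j g, ‖f i j g‖ * √(Ln S n g) ≤ ‖f i j g‖ * (wl S g : ℝ) := by
    intro n i j g
    by_cases hg : ∃ m, IsWd S m g
    · refine mul_le_mul_of_nonneg_left ?_ (norm_nonneg _)
      have h9 : Ln S n g ≤ wl S g := by
        unfold Ln
        rw [if_pos hg]
        exact min_le_left _ _
      refine (Real.sqrt_le_sqrt h9).trans ?_
      rw [Real.sqrt_le_left (Nat.cast_nonneg _)]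
      rcases Nat.eq_zero_or_pos (wl S g) with h10 | h10
      · rw [h10]
        simp
      · have : (1 : ℝ) ≤ wl S g := by exact_mod_cast h10
        nlinarith
    · rw [h6 i j g hg, norm_zero, zero_mul, zero_mul]
  have hsum : ∀ (n : ℕ) i j, Summable fun g => ‖f i j g‖ * √(Ln S n g) := fun n i j =>
    Summable.of_nonneg_of_le (fun g => by positivity) (fun g => hle n i j g) (h8 i j)
  have hN1 : ∀ n : ℕ, N1 f (Ln S n) ≤ m := fun n =>
    Finset.sum_le_sum fun i _ => Finset.sum_le_sum fun j _ =>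
      (hsum n i j).tsum_le_tsum (fun g => hle n i j g) (h8 i j)
  set A : ℝ := 4 * √2 * (N0 f * m ^ 2) + 1 with hA
  have hA0 : 0 < A := by
    have := N0_nonneg f
    positivity
  have hmain : ∀ (C : ConjClasses G) (n : ℕ), 0 < n →
      (∀ l : List G, l.length < n → (∀ y ∈ l, y ∈ S) → l.prod ∉ C.carrier) →
        ‖tau C f‖ ≤ N0 f * Real.exp 1 * Real.exp (-((n : ℝ) / (Real.exp 1 * A)) ^ 2) := by
    intro C n hn hC
    have hn' : (0 : ℝ) < n := by exact_mod_cast hn
    refine gaussA' (isLen_Ln h3 n) f h4 (hsum n) C hn' (fun g hg => ?_) hA0 ?_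
    · unfold Ln
      split_ifs with h9
      · obtain ⟨t, t1, t2, t3⟩ := wl_spec h9
        refine le_min ?_ le_rfl
        by_contra h10
        push Not at h10
        have h11 : wl S g < n := by exact_mod_cast h10
        exact hC t (by rw [t1]; exact h11) t2 (by rw [t3]; exact hg)
      · exact le_rfl
    · have h12 : N1 f (Ln S n) ^ 2 ≤ m ^ 2 := by
        have := N1_nonneg f (Ln S n)
        have := hN1 n
        gcongr
      have := N0_nonneg f
      have h13 : 4 * √2 * (N0 f * N1 f (Ln S n) ^ 2) ≤ 4 * √2 * (N0 f * m ^ 2) := by gcongr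
      linarith
  refine ⟨S, 1 / (Real.exp 1 * A) ^ 2, N0 f * Real.exp 1, by positivity, fun C n hC => ?_⟩
  rw [← h5 C]
  refine (hmain C (n + 1) (Nat.succ_pos n) fun l hl => hC l (by omega)).trans ?_
  have h14 := N0_nonneg f
  refine mul_le_mul_of_nonneg_left (Real.exp_le_exp.2 (neg_le_neg ?_)) (by positivity)
  rw [div_pow, div_mul_eq_mul_div, one_mul]
  gcongr
  linarith

end Vale.Agent.P184.H115
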