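import Vale.Agent.P184.R3.UDefs

/-!
# From the core of an element to its centralizer
-/

open scoped Pointwise

namespace Vale.Agent.P184.H115.Dm

open Vale.Agent.P184.Un

variable {G : Type*} [Group G]

/-- `q` is reached from `p` by a path of length `m` with steps in `S` and vertices in `K`. -/
def Path (S K : Set G) (m : ℕ) (p q : G) : Prop :=
  ∃ f : ℕ → G, f 0 = p ∧ f m = q ∧ (∀ i < m, (f i)⁻¹ * f (i + 1) ∈ S) ∧ ∀ i ≤ m, f i ∈ K

theorem Path.zero {S K : Set G} {p : G} (hp : p ∈ K) : Path S K 0 p p :=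
  ⟨fun _ => p, rfl, rfl, fun i hi => absurd hi (Nat.not_lt_zero i), fun _ _ => hp⟩

theorem Path.left_mem {S K : Set G} {m : ℕ} {p q : G} (h : Path S K m p q) : p ∈ K := by
  obtain ⟨f, h0, -, -, hK⟩ := h
  rw [← h0]
  exact hK 0 (Nat.zero_le m)

theorem Path.right_mem {S K : Set G} {m : ℕ} {p q : G} (h : Path S K m p q) : q ∈ K := by
  obtain ⟨f, -, h1, -, hK⟩ := h
  rw [← h1]
  exact hK m le_rfl

theorem Path.one {S K : Set G} {p s : G} (hp : p ∈ K) (hs : s ∈ S) (hps : p * s ∈ K) :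
    Path S K 1 p (p * s) := by
  refine ⟨fun i => if i = 0 then p else p * s, by simp, by simp, fun i hi => ?_, fun i _ => ?_⟩
  · have : i = 0 := by omega
    subst this
    simpa using hs
  · dsimp only
    split_ifs
    · exact hp
    · exact hps

theorem Path.trans {S K : Set G} {m n : ℕ} {p q r : G} (h1 : Path S K m p q)
    (h2 : Path S K n q r) : Path S K (m + n) p r := by
  obtain ⟨f, f0, f1, fS, fK⟩ := h1
  obtain ⟨g, g0, g1, gS, gK⟩ := h2
  refine ⟨fun i => if i ≤ m then f i else g (i - m), by simp [f0], ?_, fun i hi => ?_,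
    fun i hi => ?_⟩
  · dsimp only
    split_ifs with h
    · have hn : n = 0 := by omega
      subst hn
      rw [Nat.add_zero, f1, ← g0, g1]
    · rw [Nat.add_sub_cancel_left, g1]
  · dsimp only
    rcases lt_trichotomy i m with h | h | h
    · rw [if_pos h.le, if_pos (by omega)]
      exact fS i h
    · subst h
      rw [if_pos le_rfl, if_neg (by omega), Nat.add_sub_cancel_left, f1, ← g0]
      exact gS 0 (by omega)
    · rw [if_neg (by omega), if_neg (by omega), show i + 1 - m = i - m + 1 by omega]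
      exact gS (i - m) (by omega)
  · dsimp only
    split_ifs with h
    · exact fK i h
    · exact gK _ (by omega)

theorem Path.symm {S K : Set G} (hS : ∀ s ∈ S, s⁻¹ ∈ S) {m : ℕ} {p q : G}
    (h : Path S K m p q) : Path S K m q p := by
  obtain ⟨f, f0, f1, fS, fK⟩ := h
  refine ⟨fun i => f (m - i), by simp [f1], by simp [f0], fun i hi => ?_, fun i _ =>
    fK _ (Nat.sub_le m i)⟩
  dsimp only
  have h1 := hS _ (fS (m - (i + 1)) (by omega))
  rw [show m - (i + 1) + 1 = m - i by omega] at h1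
  simpa using h1

/-- Left translation of a path. -/
theorem Path.smul {S K : Set G} {a : G} (ha : ∀ p ∈ K, a * p ∈ K) {m : ℕ} {p q : G}
    (h : Path S K m p q) : Path S K m (a * p) (a * q) := by
  obtain ⟨f, f0, f1, fS, fK⟩ := h
  refine ⟨fun i => a * f i, by simp only [f0], by simp only [f1], fun i hi => ?_, fun i hi => ha _ (fK i hi)⟩
  have := fS i hi
  simpa [mul_assoc] using this

/-- A path of length `m` has its end in the translate of `S ^ m`. -/
theorem Path.mem_pow {S K : Set G} {m : ℕ} {p q : G} (h : Path S K m p q) : p⁻¹ * q ∈ S ^ m := by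
  obtain ⟨f, f0, f1, fS, -⟩ := h
  subst f0
  subst f1
  have key : ∀ n ≤ m, (f 0)⁻¹ * f n ∈ S ^ n := by
    intro n
    induction n with
    | zero => intro _; simp
    | succ n ih =>
      intro hn
      rw [pow_succ]
      refine ⟨(f 0)⁻¹ * f n, ih (by omega), (f n)⁻¹ * f (n + 1), fS n (by omega), ?_⟩
      group
  exact key m le_rfl

/-- The tube: the elements which conjugate `x` into `B`. -/
def tube (x : G) (B : Set G) : Set G := {p | p⁻¹ * x * p ∈ B}

theorem tube_smul {x : G} {B : Set G} {c : G} (hc : Commute c x) {p : G} (hp : p ∈ tube x B) :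
    c * p ∈ tube x B := by
  have h : (c * p)⁻¹ * x * (c * p) = p⁻¹ * x * p := by
    have h1 : c⁻¹ * x * c = x := by
      rw [mul_assoc, ← hc.eq, ← mul_assoc, inv_mul_cancel, one_mul]
    calc (c * p)⁻¹ * x * (c * p) = p⁻¹ * (c⁻¹ * x * c) * p := by group
      _ = _ := by rw [h1]
  unfold tube at hp ⊢
  change (c * p)⁻¹ * x * (c * p) ∈ B
  rw [h]
  exact hp

/-- Two points of the tube are related if they are joined by a path up to the centralizer. -/
def Rl (x : G) (S K : Set G) (p q : G) : Prop := ∃ (c : G) (m : ℕ), Commute c x ∧ Path S K m p (c * q)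

section

variable {x : G} {S : Set G} {B : Set G}

theorem Rl.symm (hS : ∀ s ∈ S, s⁻¹ ∈ S) {p q : G} (h : Rl x S (tube x B) p q) :
    Rl x S (tube x B) q p := by
  obtain ⟨c, m, hc, hp⟩ := h
  have hc' : Commute c⁻¹ x := hc.inv_left
  refine ⟨c⁻¹, m, hc', ?_⟩
  have := (hp.symm hS).smul (a := c⁻¹) (fun p hp => tube_smul hc' hp)
  rwa [inv_mul_cancel_left] at this

theorem Rl.trans {p q r : G} (h1 : Rl x S (tube x B) p q) (h2 : Rl x S (tube x B) q r) :
    Rl x S (tube x B) p r := by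
  obtain ⟨c, m, hc, hp⟩ := h1
  obtain ⟨d, n, hd, hq⟩ := h2
  refine ⟨c * d, m + n, hc.mul_left hd, ?_⟩
  have := hq.smul (a := c) (fun p hp => tube_smul hc hp)
  rw [← mul_assoc] at this
  exact hp.trans this

/-- The class of a point. -/
def cls (x : G) (S K : Set G) (p : G) : Set G := {q | Rl x S K p q}

theorem cls_eq (hS : ∀ s ∈ S, s⁻¹ ∈ S) {p q : G} (h : Rl x S (tube x B) p q) :
    cls x S (tube x B) p = cls x S (tube x B) q := by
  ext r
  exact ⟨fun hr => (h.symm hS).trans hr, fun hr => h.trans hr⟩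

open Classical in
/-- The base points. -/
noncomputable def bp (x : G) (S K : Set G) (p : G) : G :=
  if h : (cls x S K p).Nonempty then h.some else 1

theorem Rl.refl {p : G} (hp : p ∈ tube x B) : Rl x S (tube x B) p p :=
  ⟨1, 0, Commute.one_left x, by rw [one_mul]; exact Path.zero hp⟩

theorem bp_spec {p : G} (hp : p ∈ tube x B) : Rl x S (tube x B) p (bp x S (tube x B) p) := by
  have h : (cls x S (tube x B) p).Nonempty := ⟨p, Rl.refl hp⟩
  unfold bp
  rw [dif_pos h]
  exact h.some_mem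

theorem bp_eq (hS : ∀ s ∈ S, s⁻¹ ∈ S) {p q : G} (h : Rl x S (tube x B) p q) :
    bp x S (tube x B) p = bp x S (tube x B) q := by
  unfold bp
  rw [cls_eq hS h]

end

/-- Short paths. -/
theorem Path.cut {x : G} {S : Set G} {B : Finset G} (m : ℕ) :
    ∀ p q c : G, Commute c x → Path S (tube x B) m p (c * q) →
      ∃ (c' : G) (m' : ℕ), Commute c' x ∧ m' ≤ B.card ∧ Path S (tube x B) m' p (c' * q) := by
  classical
  induction m using Nat.strong_induction_on with
  | _ m ih =>
  intro p q c hc hp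
  by_cases hmN : m ≤ B.card
  · exact ⟨c, m, hc, hmN, hp⟩
  push Not at hmN
  obtain ⟨f, f0, f1, fS, fK⟩ := hp
  -- pigeonhole
  obtain ⟨i, hi, j, hj, hij, he⟩ := Finset.exists_ne_map_eq_of_card_lt_of_maps_to
    (s := Finset.range m) (t := B) (by simpa using hmN) (f := fun i => (f i)⁻¹ * x * f i)
    (fun i hi => fK i (Finset.mem_range.1 hi).le)
  wlog hlt : i < j generalizing i j
  · exact this j hj i hi hij.symm he.symm (lt_of_le_of_ne (not_lt.1 hlt) hij.symm)
  have hjm := Finset.mem_range.1 hj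
  set a : G := f j * (f i)⁻¹ with ha
  have hax : Commute a x := by
    have h1 : a * x * a⁻¹ = x := by
      calc a * x * a⁻¹ = f j * ((f i)⁻¹ * x * f i) * (f j)⁻¹ := by rw [ha]; group
        _ = f j * ((f j)⁻¹ * x * f j) * (f j)⁻¹ := by rw [he]
        _ = x := by group
    exact mul_inv_eq_iff_eq_mul.1 h1
  have hax' : Commute a⁻¹ x := hax.inv_left
  have p2 : Path S (tube x B) i (f 0) (f i) :=
    ⟨f, rfl, rfl, fun l hl => fS l (by omega), fun l hl => fK l (by omega)⟩
  have p3 : Path S (tube x B) (m - j) (f j) (f m) := by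
    refine ⟨fun l => f (j + l), by simp, ?_, fun l hl => fS (j + l) (by omega),
      fun l hl => fK (j + l) (by omega)⟩
    dsimp only
    rw [show j + (m - j) = m by omega]
  have p4 : Path S (tube x B) (m - j) (f i) (a⁻¹ * f m) := by
    have := p3.smul (a := a⁻¹) (fun p hp => tube_smul hax' hp)
    have h2 : a⁻¹ * f j = f i := by rw [ha]; group
    rwa [h2] at this
  have p5 := p2.trans p4
  rw [f1, ← mul_assoc, f0] at p5
  exact ih (i + (m - j)) (by omega) p q (a⁻¹ * c) (hax'.mul_left hc) p5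

theorem mem_cen {x c : G} : c ∈ Cen x ↔ Commute c x := by
  unfold Cen
  rw [Subgroup.mem_centralizer_singleton_iff]
  rfl

section

variable {x : G} {S : Set G} {B : Finset G}

theorem exists_short {p : G} (hp : p ∈ tube x (B : Set G)) : ∃ (c : G) (m : ℕ), Commute c x ∧
    m ≤ B.card ∧ Path S (tube x B) m p (c * bp x S (tube x B) p) := by
  obtain ⟨c, m, hc, h⟩ := bp_spec (S := S) hp
  exact Path.cut m p _ c hc h

/-- **The map from the core to the centralizer.** -/
theorem exists_f (hS : ∀ s ∈ S, s⁻¹ ∈ S) (N : Cen x → ℝ) (w : ℕ → ℝ) (hw : Monotone w)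
    (hb : ∀ (m : ℕ) (c : Cen x) (p : G), p⁻¹ * (c : G) * p ∈ S ^ m → N c ≤ w m) :
    ∃ f : G → Cen x, (∀ (c : Cen x) p, p⁻¹ * x * p ∈ B → f ((c : G) * p) = c * f p) ∧
      ∀ p s, s ∈ S → p⁻¹ * x * p ∈ B → (p * s)⁻¹ * x * (p * s) ∈ B →
        N ((f p)⁻¹ * f (p * s)) ≤ w (2 * B.card + 1) := by
  classical
  -- the section
  have hsec : ∀ y : G, ∃ q : G, (∃ p, p⁻¹ * x * p = y) → q⁻¹ * x * q = y := fun y => by
    by_cases h : ∃ p, p⁻¹ * x * p = y
    · exact ⟨h.choose, fun _ => h.choose_spec⟩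
    · exact ⟨1, fun h' => absurd h' h⟩
  choose ρ hρ using hsec
  have hρ' : ∀ p, (ρ (p⁻¹ * x * p))⁻¹ * x * ρ (p⁻¹ * x * p) = p⁻¹ * x * p := fun p =>
    hρ _ ⟨p, rfl⟩
  -- the elements at the section
  have hg : ∀ p : G, ∃ c : Cen x, p⁻¹ * x * p ∈ B → ∃ m : ℕ, m ≤ B.card ∧
      Path S (tube x B) m p ((c : G) * bp x S (tube x B) p) := fun p => by
    by_cases h : p⁻¹ * x * p ∈ B
    · obtain ⟨c, m, hc, hm, hP⟩ := exists_short (S := S) (show p ∈ tube x (B : Set G) from h)
      exact ⟨⟨c, mem_cen.2 hc⟩, fun _ => ⟨m, hm, hP⟩⟩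
    · exact ⟨1, fun h' => absurd h' h⟩
  choose g hg using hg
  have hc0 : ∀ p, Commute (p * (ρ (p⁻¹ * x * p))⁻¹) x := fun p => by
    have h1 := hρ' p
    set q := ρ (p⁻¹ * x * p) with hq
    have h2 : (p * q⁻¹) * x * (p * q⁻¹)⁻¹ = x := by
      calc (p * q⁻¹) * x * (p * q⁻¹)⁻¹ = p * (q⁻¹ * x * q) * p⁻¹ := by group
        _ = p * (p⁻¹ * x * p) * p⁻¹ := by rw [h1]
        _ = x := by group
    exact mul_inv_eq_iff_eq_mul.1 h2
  let f : G → Cen x := fun p =>
    ⟨p * (ρ (p⁻¹ * x * p))⁻¹, mem_cen.2 (hc0 p)⟩ * g (ρ (p⁻¹ * x * p))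
  -- the path to the base point
  have hf : ∀ p, p ∈ tube x (B : Set G) → ∃ m : ℕ, m ≤ B.card ∧
      Path S (tube x B) m p ((f p : G) * bp x S (tube x B) p) := fun p hp => by
    have hp' : p⁻¹ * x * p ∈ B := hp
    have hq : (ρ (p⁻¹ * x * p))⁻¹ * x * ρ (p⁻¹ * x * p) ∈ B := by rw [hρ']; exact hp'
    obtain ⟨m, hm, hP⟩ := hg (ρ (p⁻¹ * x * p)) hq
    refine ⟨m, hm, ?_⟩
    have h1 := hP.smul (a := p * (ρ (p⁻¹ * x * p))⁻¹) (fun p hp => tube_smul (hc0 _) hp)
    rw [inv_mul_cancel_right, ← mul_assoc] at h1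
    have h2 : Rl x S (tube x (B : Set G)) p (ρ (p⁻¹ * x * p)) :=
      ⟨p * (ρ (p⁻¹ * x * p))⁻¹, 0, hc0 p, by rw [inv_mul_cancel_right]; exact Path.zero hp⟩
    rw [bp_eq hS h2]
    exact h1
  refine ⟨f, ?_, ?_⟩
  · intro c p hp
    have hcx : Commute (c : G) x := mem_cen.1 c.2
    have h1 : ((c : G) * p)⁻¹ * x * ((c : G) * p) = p⁻¹ * x * p := by
      have h2 : (c : G)⁻¹ * x * c = x := by
        rw [mul_assoc, ← hcx.eq, ← mul_assoc, inv_mul_cancel, one_mul]
      calc ((c : G) * p)⁻¹ * x * ((c : G) * p) = p⁻¹ * ((c : G)⁻¹ * x * c) * p := by group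
        _ = _ := by rw [h2]
    apply Subtype.ext
    simp only [f, Subgroup.coe_mul, h1]
    group
  · intro p s hs hp0 hps0
    have hp : p ∈ tube x (B : Set G) := hp0
    have hps : p * s ∈ tube x (B : Set G) := hps0
    obtain ⟨m, hm, hP⟩ := hf p hp
    obtain ⟨m', hm', hP'⟩ := hf (p * s) hps
    have h1 : Rl x S (tube x (B : Set G)) (p * s) p := by
      refine ⟨1, 1, Commute.one_left x, ?_⟩
      rw [one_mul]
      exact (Path.one hp hs hps).symm hS
    rw [bp_eq hS h1] at hP'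
    have h2 := ((hP.symm hS).trans (Path.one hp hs hps)).trans hP'
    have h3 := h2.mem_pow
    have h4 := hb (m + 1 + m') ((f p)⁻¹ * f (p * s)) (bp x S (tube x B) p) (by
      convert h3 using 1
      rw [Subgroup.coe_mul, Subgroup.coe_inv]
      group)
    exact h4.trans (hw (by omega))

end

end Vale.Agent.P184.H115.Dm
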