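import Vale.Agent.P184.R3.UDefs

/-!
# Slow fields on groups of finite dimension with a central element
-/

namespace Vale.Agent.P184.H115

open Vale.Agent.P184.Un

/-- `N` is a length function on the group `H`, the element `x` is at most polynomially distorted,
and at every scale `r` the quotient of `H` by `x` has a covering with `n` colours, by sets of size
polynomial in `r`, two sets with the same colour being at distance more than `r`, with Lebesgue
number `r`. -/
structure DimData (H : Type*) [Group H] (x : H) (N : H → ℝ) (n : ℕ) (C : ℝ) (d : ℕ) : Prop where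
  len : IsLen N
  dist : ∀ k : ℤ, |(k : ℝ)| ≤ C * (1 + N (x ^ k)) ^ d
  cover : ∀ r : ℝ, 1 ≤ r → ∃ z : Fin n → H → Option H, (∀ j h, z j (x * h) = z j h) ∧
    (∀ j h a, z j h = some a → ∃ k : ℤ, N (h⁻¹ * x ^ k * a) ≤ C * r ^ d) ∧
    (∀ j h h' a a', N (h⁻¹ * h') ≤ r → z j h = some a → z j h' = some a' → a = a') ∧
    ∀ h, ∃ j a, ∀ h', N (h⁻¹ * h') ≤ r → z j h' = some a

section

variable {H : Type*} [Group H]

theorem len_nonneg {N : H → ℝ} (hN : IsLen N) (g : H) : 0 ≤ N g := by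
  have h := hN.2.2 g g⁻¹
  rw [mul_inv_cancel, hN.1, hN.2.1] at h
  linarith

/-- The indicator of the domain. -/
noncomputable def ch (z : H → Option H) (h : H) : ℝ := if (z h).isSome then 1 else 0

/-- The tent of a set. -/
noncomputable def bb (N : H → ℝ) (r : ℝ) (z : H → Option H) (h : H) : ℝ :=
  ⨅ h' : H, (N (h⁻¹ * h') / r + ch z h')

omit [Group H] in
theorem ch_nonneg (z : H → Option H) (h : H) : 0 ≤ ch z h := by
  unfold ch
  split_ifs <;> norm_num

omit [Group H] in
theorem ch_le (z : H → Option H) (h : H) : ch z h ≤ 1 := by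
  unfold ch
  split_ifs <;> norm_num

variable {N : H → ℝ} (hN : IsLen N) {r : ℝ} (hr : 0 < r) (z : H → Option H)

include hN hr in
theorem bb_bdd (h : H) : BddBelow (Set.range fun h' : H => N (h⁻¹ * h') / r + ch z h') := by
  refine ⟨0, ?_⟩
  rintro _ ⟨h', rfl⟩
  exact add_nonneg (div_nonneg (len_nonneg hN _) hr.le) (ch_nonneg z h')

include hN hr in
theorem bb_nonneg (h : H) : 0 ≤ bb N r z h :=
  le_ciInf fun h' => add_nonneg (div_nonneg (len_nonneg hN _) hr.le) (ch_nonneg z h')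

include hN hr in
theorem bb_le_ch (h : H) : bb N r z h ≤ ch z h := by
  refine (ciInf_le (bb_bdd hN hr z h) h).trans (le_of_eq ?_)
  rw [inv_mul_cancel, hN.1, zero_div, zero_add]

include hN hr in
theorem bb_le_one (h : H) : bb N r z h ≤ 1 := (bb_le_ch hN hr z h).trans (ch_le z h)

include hN hr in
theorem bb_eq_zero {h : H} (hz : z h = none) : bb N r z h = 0 := by
  refine le_antisymm ((bb_le_ch hN hr z h).trans (le_of_eq ?_)) (bb_nonneg hN hr z h)
  simp [ch, hz]

include hN hr in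
theorem one_le_bb {h a : H} (hz : ∀ h', N (h⁻¹ * h') ≤ r → z h' = some a) : 1 ≤ bb N r z h := by
  refine le_ciInf fun h' => ?_
  by_cases hh : N (h⁻¹ * h') ≤ r
  · have : ch z h' = 1 := by simp [ch, hz h' hh]
    rw [this]
    have := div_nonneg (len_nonneg hN (h⁻¹ * h')) hr.le
    linarith
  · have h1 : 1 ≤ N (h⁻¹ * h') / r := by
      rw [one_le_div hr]
      exact (not_le.1 hh).le
    have := ch_nonneg z h'
    linarith

include hN hr in
theorem bb_lip (h g : H) : bb N r z h ≤ bb N r z g + N (h⁻¹ * g) / r := by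
  rw [← sub_le_iff_le_add]
  refine le_ciInf fun h' => ?_
  rw [sub_le_iff_le_add]
  refine (ciInf_le (bb_bdd hN hr z h) h').trans ?_
  have h1 : N (h⁻¹ * h') ≤ N (h⁻¹ * g) + N (g⁻¹ * h') := by
    have := hN.2.2 (h⁻¹ * g) (g⁻¹ * h')
    rwa [mul_assoc, mul_inv_cancel_left] at this
  have h2 : N (h⁻¹ * h') / r ≤ N (h⁻¹ * g) / r + N (g⁻¹ * h') / r := by
    rw [← add_div]
    gcongr
  linarith

include hN hr in
theorem abs_bb_sub (h g : H) : |bb N r z h - bb N r z g| ≤ N (h⁻¹ * g) / r := by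
  have h1 := bb_lip hN hr z h g
  have h2 := bb_lip hN hr z g h
  have h3 : N (g⁻¹ * h) = N (h⁻¹ * g) := by
    rw [← hN.2.1 (g⁻¹ * h), mul_inv_rev, inv_inv]
  rw [h3] at h2
  rw [abs_le]
  constructor <;> linarith

theorem bb_shift {x : H} (hx : ∀ h, z (x * h) = z h) (h : H) :
    bb N r z (x * h) = bb N r z h := by
  unfold bb
  rw [← (Equiv.mulLeft x).iInf_comp]
  refine iInf_congr fun h' => ?_
  simp only [Equiv.coe_mulLeft, ch, hx]
  congr 3
  group

/-- The euclidean norm. -/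
noncomputable def bn {n : ℕ} (b : Fin n → ℝ) : ℝ := √(∑ j, b j ^ 2)

theorem bn_sub {n : ℕ} (b b' : Fin n → ℝ) {t : ℝ} (ht : 0 ≤ t) (h : ∀ j, |b j - b' j| ≤ t) :
    bn b ≤ bn b' + n * t := by
  -- comparison through the euclidean norm
  have h1 : ‖(WithLp.toLp 2 b : EuclideanSpace ℝ (Fin n))‖ = bn b := by
    rw [EuclideanSpace.norm_eq]
    unfold bn
    congr 1
    exact Finset.sum_congr rfl fun j _ => by simp
  have h2 : ‖(WithLp.toLp 2 b' : EuclideanSpace ℝ (Fin n))‖ = bn b' := by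
    rw [EuclideanSpace.norm_eq]
    unfold bn
    congr 1
    exact Finset.sum_congr rfl fun j _ => by simp
  have h3 : ‖(WithLp.toLp 2 b : EuclideanSpace ℝ (Fin n)) - WithLp.toLp 2 b'‖ ≤ n * t := by
    rw [EuclideanSpace.norm_eq]
    have h4 : ∑ j : Fin n, ‖((WithLp.toLp 2 b : EuclideanSpace ℝ (Fin n)) - WithLp.toLp 2 b') j‖ ^ 2 ≤
        (n * t) ^ 2 := by
      have h5 : ∀ j : Fin n, ‖((WithLp.toLp 2 b : EuclideanSpace ℝ (Fin n)) - WithLp.toLp 2 b') j‖ ^ 2
          ≤ t ^ 2 := fun j => by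
        have : ((WithLp.toLp 2 b : EuclideanSpace ℝ (Fin n)) - WithLp.toLp 2 b') j = b j - b' j := rfl
        rw [this, Real.norm_eq_abs]
        exact pow_le_pow_left₀ (abs_nonneg _) (h j) 2
      refine (Finset.sum_le_sum fun j _ => h5 j).trans ?_
      rw [Finset.sum_const, Finset.card_univ, Fintype.card_fin, nsmul_eq_mul, mul_pow]
      refine mul_le_mul_of_nonneg_right ?_ (sq_nonneg _)
      rcases Nat.eq_zero_or_pos n with rfl | hn
      · simp
      · have : (1 : ℝ) ≤ n := by exact_mod_cast hn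
        nlinarith
    rw [Real.sqrt_le_left (by positivity)]
    exact h4
  have h6 := norm_sub_norm_le (WithLp.toLp 2 b : EuclideanSpace ℝ (Fin n)) (WithLp.toLp 2 b')
  rw [h1, h2] at h6
  linarith

/-- Normalised functions are Lipschitz. -/
theorem norm_lip {n : ℕ} (b b' : Fin n → ℝ) {t : ℝ} (ht : 0 ≤ t) (h : ∀ j, |b j - b' j| ≤ t)
    (h1 : 1 ≤ bn b) (h1' : 1 ≤ bn b') (hb' : ∀ j, 0 ≤ b' j) (j : Fin n) :
    |b j / bn b - b' j / bn b'| ≤ (1 + n) * t := by
  have p1 : 0 < bn b := by linarith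
  have p2 : 0 < bn b' := by linarith
  have e1 : b j / bn b - b' j / bn b' =
      (b j - b' j) / bn b + b' j / bn b' * ((bn b' - bn b) / bn b) := by
    field_simp
    ring
  have h2 : |bn b' - bn b| ≤ n * t := by
    have h3 := bn_sub b b' ht h
    have h4 := bn_sub b' b ht fun j => by rw [abs_sub_comm]; exact h j
    rw [abs_le]
    constructor <;> linarith
  have h5 : b' j / bn b' ≤ 1 := by
    rw [div_le_one p2]
    unfold bn
    refine Real.le_sqrt_of_sq_le ?_
    exact Finset.single_le_sum (f := fun j => b' j ^ 2) (fun j _ => sq_nonneg _) (Finset.mem_univ j)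
  have h6 : 0 ≤ b' j / bn b' := div_nonneg (hb' j) p2.le
  calc |b j / bn b - b' j / bn b'| ≤ |(b j - b' j) / bn b| + |b' j / bn b' * ((bn b' - bn b) / bn b)| := by
        rw [e1]
        exact abs_add_le _ _
    _ ≤ t + 1 * (n * t) := by
        refine add_le_add ?_ ?_
        · rw [abs_div, abs_of_pos p1]
          exact (div_le_self (abs_nonneg _) h1).trans (h j)
        · rw [abs_mul, abs_of_nonneg h6, abs_div, abs_of_pos p1]
          refine mul_le_mul h5 ?_ (by positivity) zero_le_one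
          exact (div_le_self (abs_nonneg _) h1).trans h2
    _ = (1 + n) * t := by ring

end

section kappa

variable {H : Type*} [Group H] {x : H} (hx : ∀ h : H, x * h = h * x) {N : H → ℝ} (hN : IsLen N)
  {C : ℝ} {d : ℕ} (hd : ∀ k : ℤ, |(k : ℝ)| ≤ C * (1 + N (x ^ k)) ^ d)

/-- The exponents. -/
def Kset (x : H) (N : H → ℝ) (R : ℝ) (a h : H) : Set ℤ := {k | N (h⁻¹ * x ^ k * a) ≤ R}

/-- The phase. -/
noncomputable def kap (x : H) (N : H → ℝ) (R : ℝ) (a h : H) : ℤ := sInf (Kset x N R a h)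

include hx hN hd in
theorem kset_diff (hC : 0 ≤ C) {R T : ℝ} {a h h' : H} (hT : N (h⁻¹ * h') ≤ T) {k k' : ℤ}
    (hk : k ∈ Kset x N R a h) (hk' : k' ∈ Kset x N R a h') :
    |((k' - k : ℤ) : ℝ)| ≤ C * (1 + (2 * R + T)) ^ d := by
  refine (hd (k' - k)).trans ?_
  have hxc : ∀ (k : ℤ) (h : H), x ^ k * h = h * x ^ k := fun k h =>
    ((show Commute x h from hx h).zpow_left k).eq
  have e1 : x ^ (k' - k) = (h⁻¹ * x ^ k * a)⁻¹ * ((h⁻¹ * h') * (h'⁻¹ * x ^ k' * a)) := by
    have e2 : x ^ (k' - k) = a⁻¹ * (x ^ (k' - k) * a) := by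
      rw [hxc, inv_mul_cancel_left]
    rw [e2, zpow_sub]
    have e3 : x ^ k' * (x ^ k)⁻¹ = (x ^ k)⁻¹ * x ^ k' := by
      rw [← zpow_neg, ← zpow_add, ← zpow_add, add_comm]
    rw [e3]
    group
  have h1 : N (x ^ (k' - k)) ≤ 2 * R + T := by
    rw [e1]
    have h2 := hN.2.2 (h⁻¹ * x ^ k * a)⁻¹ ((h⁻¹ * h') * (h'⁻¹ * x ^ k' * a))
    have h3 := hN.2.2 (h⁻¹ * h') (h'⁻¹ * x ^ k' * a)
    rw [hN.2.1] at h2
    have h4 : N (h⁻¹ * x ^ k * a) ≤ R := hk
    have h5 : N (h'⁻¹ * x ^ k' * a) ≤ R := hk'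
    linarith
  have h6 := len_nonneg hN (x ^ (k' - k))
  gcongr

include hx hN hd in
theorem kset_bdd (hC : 0 ≤ C) {R : ℝ} {a h : H} {k : ℤ} (hk : k ∈ Kset x N R a h) :
    BddBelow (Kset x N R a h) := by
  obtain ⟨m, hm⟩ := exists_nat_ge (C * (1 + (2 * R + 0)) ^ d)
  refine ⟨k - m, fun k' hk' => ?_⟩
  have h1 := kset_diff hx hN hd hC (T := 0) (by rw [inv_mul_cancel, hN.1]) hk hk'
  have h2 := (abs_le.1 (h1.trans hm)).1
  have h3 : (-(m : ℤ)) ≤ k' - k := by exact_mod_cast h2
  linarith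

include hx hN hd in
theorem kap_mem (hC : 0 ≤ C) {R : ℝ} {a h : H} {k : ℤ} (hk : k ∈ Kset x N R a h) :
    kap x N R a h ∈ Kset x N R a h := Int.csInf_mem ⟨k, hk⟩ (kset_bdd hx hN hd hC hk)

theorem kset_shift (R : ℝ) (a h : H) (k : ℤ) :
    k + 1 ∈ Kset x N R a (x * h) ↔ k ∈ Kset x N R a h := by
  unfold Kset
  have : (x * h)⁻¹ * x ^ (k + 1) * a = h⁻¹ * x ^ k * a := by
    rw [add_comm, zpow_add, zpow_one]
    group
  change N ((x * h)⁻¹ * x ^ (k + 1) * a) ≤ R ↔ N (h⁻¹ * x ^ k * a) ≤ R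
  rw [this]

include hx hN hd in
theorem kap_shift (hC : 0 ≤ C) {R : ℝ} {a h : H} {k : ℤ} (hk : k ∈ Kset x N R a h) :
    kap x N R a (x * h) = kap x N R a h + 1 := by
  have hk' : k + 1 ∈ Kset x N R a (x * h) := (kset_shift R a h k).2 hk
  have m1 := kap_mem hx hN hd hC hk
  have m2 := kap_mem hx hN hd hC hk'
  refine le_antisymm ?_ ?_
  · exact csInf_le (kset_bdd hx hN hd hC hk') ((kset_shift R a h _).2 m1)
  · have h1 : kap x N R a (x * h) - 1 ∈ Kset x N R a h := by
      rw [← kset_shift, sub_add_cancel]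
      exact m2
    have h2 : kap x N R a h ≤ kap x N R a (x * h) - 1 := csInf_le (kset_bdd hx hN hd hC hk) h1
    linarith

include hx hN hd in
theorem kap_diff (hC : 0 ≤ C) {R T : ℝ} {a h h' : H} (hT : N (h⁻¹ * h') ≤ T) {k k' : ℤ}
    (hk : k ∈ Kset x N R a h) (hk' : k' ∈ Kset x N R a h') :
    |((kap x N R a h' - kap x N R a h : ℤ) : ℝ)| ≤ C * (1 + (2 * R + T)) ^ d :=
  kset_diff hx hN hd hC hT (kap_mem hx hN hd hC hk) (kap_mem hx hN hd hC hk')

end kappa

section field

variable {H : Type*} [Group H]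

/-- The phase of the field in the colour `j`. -/
noncomputable def phs (x : H) (N : H → ℝ) (R : ℝ) (z : H → Option H) (h : H) : ℝ :=
  match z h with
  | none => 0
  | some a => (kap x N R a h : ℤ)

/-- The field. -/
noncomputable def uf (x : H) (N : H → ℝ) (r R φ : ℝ) {n : ℕ} (z : Fin n → H → Option H) (h : H)
    (j : Fin n) : ℂ :=
  (((bb N r (z j) h) / bn (fun j => bb N r (z j) h) : ℝ) : ℂ) *
    Complex.exp (((φ * phs x N R (z j) h : ℝ) : ℂ) * Complex.I)

theorem norm_exp_sub (s t : ℝ) :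
    ‖Complex.exp ((s : ℂ) * Complex.I) - Complex.exp ((t : ℂ) * Complex.I)‖ ≤ |s - t| := by
  have h1 : Complex.exp ((s : ℂ) * Complex.I) - Complex.exp ((t : ℂ) * Complex.I) =
      Complex.exp ((t : ℂ) * Complex.I) * (Complex.exp (Complex.I * ((s - t : ℝ) : ℂ)) - 1) := by
    rw [mul_sub, ← Complex.exp_add, mul_one]
    congr 2
    push_cast
    ring
  rw [h1, norm_mul, Complex.norm_exp_ofReal_mul_I, one_mul]
  exact (Real.norm_exp_I_mul_ofReal_sub_one_le).trans (le_of_eq (Real.norm_eq_abs _))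

theorem exists_field {x : H} (hx : ∀ h : H, x * h = h * x) {N : H → ℝ} {n : ℕ} {C : ℝ} {d : ℕ}
    (hD : DimData H x N n C d) (hC : 1 ≤ C) {δ : ℝ} (hδ : 0 < δ) :
    ∃ (K : ℝ) (e : ℕ), 1 ≤ K ∧ ∀ Λ : ℝ, 1 ≤ Λ → ∃ (φ : ℝ) (u : H → Fin n → ℂ),
      0 < φ ∧ φ ≤ 1 ∧ 1 / φ ≤ K * Λ ^ e ∧
      (∀ h j, u (x * h) j = Complex.exp ((φ : ℂ) * Complex.I) * u h j) ∧
      (∀ h, ∑ j, ‖u h j‖ ^ 2 = 1) ∧
      ∀ h h', N (h⁻¹ * h') ≤ Λ → ∑ j, ‖u h j - u h' j‖ ≤ δ := by
  have hC0 : 0 ≤ C := by linarith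
  have hN := hD.len
  -- the small number
  obtain ⟨ε, hε, hε1, hεδ⟩ : ∃ ε : ℝ, 0 < ε ∧ ε ≤ 1 ∧ n * ((2 + n) * ε) ≤ δ := by
    refine ⟨min 1 (δ / (n * (2 + n) + 1)), lt_min one_pos (by positivity), min_le_left _ _, ?_⟩
    have h1 : min 1 (δ / (n * (2 + n) + 1)) ≤ δ / (n * (2 + n) + 1) := min_le_right _ _
    calc (n : ℝ) * ((2 + n) * min 1 (δ / (n * (2 + n) + 1)))
        ≤ (n : ℝ) * ((2 + n) * (δ / (n * (2 + n) + 1))) := by gcongr
      _ = (n * (2 + n)) / (n * (2 + n) + 1) * δ := by ring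
      _ ≤ 1 * δ := by
          refine mul_le_mul_of_nonneg_right ?_ hδ.le
          rw [div_le_one (by positivity)]
          linarith
      _ = δ := one_mul _
  refine ⟨C * (2 + 2 * C) ^ d * (1 / ε) ^ ((d + 1) * d) * (1 / ε), (d + 1) * d, ?_, ?_⟩
  · have h1 : 1 ≤ 1 / ε := by
      rw [le_div_iff₀ hε]
      linarith
    have h2 : (1 : ℝ) ≤ (2 + 2 * C) ^ d := one_le_pow₀ (by linarith)
    have h3 : (1 : ℝ) ≤ (1 / ε) ^ ((d + 1) * d) := one_le_pow₀ h1
    have h4 : (1 : ℝ) ≤ C * (2 + 2 * C) ^ d := one_le_mul_of_one_le_of_one_le hC h2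
    have h5 : (1 : ℝ) ≤ C * (2 + 2 * C) ^ d * (1 / ε) ^ ((d + 1) * d) :=
      one_le_mul_of_one_le_of_one_le h4 h3
    exact one_le_mul_of_one_le_of_one_le h5 h1
  intro Λ hΛ
  -- the scale
  set r : ℝ := Λ / ε with hrdef
  have hr1 : Λ ≤ r := by
    rw [hrdef, le_div_iff₀ hε]
    nlinarith
  have hr : 1 ≤ r := hΛ.trans hr1
  have hr0 : 0 < r := by linarith
  obtain ⟨z, hz1, hz2, hz3, hz4⟩ := hD.cover r hr
  set R : ℝ := C * r ^ d with hR
  have hR0 : 0 ≤ R := by positivity
  set M : ℝ := C * (1 + (2 * R + Λ)) ^ d with hM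
  have hM1 : 1 ≤ M := one_le_mul_of_one_le_of_one_le hC (one_le_pow₀ (by linarith))
  have hM0 : 0 < M := by linarith
  set φ : ℝ := ε / M with hφ
  have hφ0 : 0 < φ := div_pos hε hM0
  refine ⟨φ, uf x N r R φ z, hφ0, ?_, ?_, ?_, ?_, ?_⟩
  · rw [hφ, div_le_one hM0]
    linarith
  · rw [hφ, one_div_div]
    have h1 : 1 + (2 * R + Λ) ≤ (2 + 2 * C) * r ^ (d + 1) := by
      have h2 : r ≤ r ^ (d + 1) := le_self_pow₀ hr (by omega)
      have h3 : r ^ d ≤ r ^ (d + 1) := pow_le_pow_right₀ hr (by omega)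
      have h4 : R ≤ C * r ^ (d + 1) := by rw [hR]; gcongr
      have h5 : 1 ≤ r ^ (d + 1) := one_le_pow₀ hr
      linarith
    have h6 : M ≤ C * ((2 + 2 * C) * r ^ (d + 1)) ^ d := by
      rw [hM]
      gcongr
    calc M / ε ≤ C * ((2 + 2 * C) * r ^ (d + 1)) ^ d / ε := by gcongr
      _ = C * (2 + 2 * C) ^ d * (1 / ε) ^ ((d + 1) * d) * (1 / ε) * Λ ^ ((d + 1) * d) := by
          rw [mul_pow, ← pow_mul, hrdef, div_eq_mul_one_div Λ ε, mul_pow]
          ring
  · intro h j
    have hb : ∀ j, bb N r (z j) (x * h) = bb N r (z j) h := fun j => bb_shift (z j) (hz1 j) h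
    unfold uf
    simp only [hb]
    cases hz : z j h with
    | none =>
      have : bb N r (z j) h = 0 := bb_eq_zero hN hr0 (z j) hz
      rw [this]
      simp
    | some a =>
      obtain ⟨k, hk⟩ := hz2 j h a hz
      have h1 : phs x N R (z j) (x * h) = phs x N R (z j) h + 1 := by
        unfold phs
        rw [hz1, hz]
        simp only
        rw [kap_shift hx hN hD.dist hC0 (k := k) hk]
        push_cast
        ring
      rw [h1]
      rw [mul_left_comm, ← Complex.exp_add]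
      congr 2
      push_cast
      ring
  · intro h
    obtain ⟨j0, a0, h0⟩ := hz4 h
    have hb0 : 1 ≤ bb N r (z j0) h := one_le_bb hN hr0 (z j0) h0
    have hbn : 1 ≤ bn (fun j => bb N r (z j) h) := by
      unfold bn
      refine Real.le_sqrt_of_sq_le ?_
      have : bb N r (z j0) h ^ 2 ≤ ∑ j, bb N r (z j) h ^ 2 :=
        Finset.single_le_sum (f := fun j => bb N r (z j) h ^ 2) (fun j _ => sq_nonneg _)
          (Finset.mem_univ j0)
      nlinarith
    have h1 : ∀ j, ‖uf x N r R φ z h j‖ ^ 2 =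
        bb N r (z j) h ^ 2 / bn (fun j => bb N r (z j) h) ^ 2 := fun j => by
      unfold uf
      rw [norm_mul, Complex.norm_exp_ofReal_mul_I, mul_one, Complex.norm_real, Real.norm_eq_abs,
        sq_abs, div_pow]
    rw [Finset.sum_congr rfl fun j _ => h1 j, ← Finset.sum_div]
    have h2 : bn (fun j => bb N r (z j) h) ^ 2 = ∑ j, bb N r (z j) h ^ 2 := by
      unfold bn
      rw [Real.sq_sqrt (Finset.sum_nonneg fun j _ => sq_nonneg _)]
    rw [h2, div_self]
    rw [← h2]
    positivity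
  · intro h h' hh
    have hbn : ∀ g, 1 ≤ bn (fun j => bb N r (z j) g) := fun g => by
      obtain ⟨j0, a0, h0⟩ := hz4 g
      have hb0 : 1 ≤ bb N r (z j0) g := one_le_bb hN hr0 (z j0) h0
      unfold bn
      refine Real.le_sqrt_of_sq_le ?_
      have : bb N r (z j0) g ^ 2 ≤ ∑ j, bb N r (z j) g ^ 2 :=
        Finset.single_le_sum (f := fun j => bb N r (z j) g ^ 2) (fun j _ => sq_nonneg _)
          (Finset.mem_univ j0)
      nlinarith
    have ht : N (h⁻¹ * h') / r ≤ ε := by
      rw [div_le_iff₀ hr0, hrdef, mul_div_cancel₀ _ hε.ne']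
      exact hh
    have hab : ∀ j, |bb N r (z j) h / bn (fun j => bb N r (z j) h) -
        bb N r (z j) h' / bn (fun j => bb N r (z j) h')| ≤ (1 + n) * ε := fun j =>
      norm_lip (fun j => bb N r (z j) h) (fun j => bb N r (z j) h') hε.le
        (fun j => (abs_bb_sub hN hr0 (z j) h h').trans ht) (hbn h) (hbn h')
        (fun j => bb_nonneg hN hr0 (z j) h') j
    have key : ∀ j, ‖uf x N r R φ z h j - uf x N r R φ z h' j‖ ≤ (2 + n) * ε := fun j => by
      unfold uf
      set a := bb N r (z j) h / bn (fun j => bb N r (z j) h) with ha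
      set a' := bb N r (z j) h' / bn (fun j => bb N r (z j) h') with ha'
      have ha'1 : |a'| ≤ 1 := by
        have p2 : 0 < bn (fun j => bb N r (z j) h') := by linarith [hbn h']
        rw [ha', abs_div, abs_of_pos p2, abs_of_nonneg (bb_nonneg hN hr0 (z j) h')]
        exact (div_le_one p2).2 ((bb_le_one hN hr0 (z j) h').trans (hbn h'))
      have hph : |a'| * |φ * phs x N R (z j) h - φ * phs x N R (z j) h'| ≤ ε ∨ a = 0 ∨ a' = 0 := by
        cases hz : z j h with
        | none =>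
          right
          left
          rw [ha, bb_eq_zero hN hr0 (z j) hz, zero_div]
        | some b =>
          cases hz' : z j h' with
          | none =>
            right
            right
            rw [ha', bb_eq_zero hN hr0 (z j) hz', zero_div]
          | some b' =>
            left
            have hbb : b = b' := hz3 j h h' b b' (hh.trans hr1) hz hz'
            subst hbb
            obtain ⟨k, hk⟩ := hz2 j h b hz
            obtain ⟨k', hk'⟩ := hz2 j h' b hz'
            have h1 := kap_diff hx hN hD.dist hC0 hh (k := k) (k' := k') hk hk'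
            have h2 : |phs x N R (z j) h - phs x N R (z j) h'| ≤ M := by
              have e1 : phs x N R (z j) h = (kap x N R b h : ℤ) := by unfold phs; rw [hz]
              have e2 : phs x N R (z j) h' = (kap x N R b h' : ℤ) := by unfold phs; rw [hz']
              rw [e1, e2, abs_sub_comm]
              push_cast at h1
              exact h1
            rw [← mul_sub, abs_mul, abs_of_pos hφ0]
            calc |a'| * (φ * |phs x N R (z j) h - phs x N R (z j) h'|) ≤ 1 * (φ * M) := by gcongr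
              _ = ε := by rw [hφ]; field_simp
      rcases hph with hph | h0 | h0
      · have e1 : (a : ℂ) * Complex.exp (((φ * phs x N R (z j) h : ℝ) : ℂ) * Complex.I) -
            (a' : ℂ) * Complex.exp (((φ * phs x N R (z j) h' : ℝ) : ℂ) * Complex.I) =
            ((a - a' : ℝ) : ℂ) * Complex.exp (((φ * phs x N R (z j) h : ℝ) : ℂ) * Complex.I) +
            (a' : ℂ) * (Complex.exp (((φ * phs x N R (z j) h : ℝ) : ℂ) * Complex.I) -
              Complex.exp (((φ * phs x N R (z j) h' : ℝ) : ℂ) * Complex.I)) := by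
          push_cast
          ring
        rw [e1]
        refine (norm_add_le _ _).trans ?_
        rw [norm_mul, norm_mul, Complex.norm_exp_ofReal_mul_I, mul_one, Complex.norm_real,
          Complex.norm_real, Real.norm_eq_abs, Real.norm_eq_abs]
        have h1 := mul_le_mul_of_nonneg_left (norm_exp_sub (φ * phs x N R (z j) h)
          (φ * phs x N R (z j) h')) (abs_nonneg a')
        have h2 := hab j
        calc _ ≤ (1 + n) * ε + ε := add_le_add h2 (h1.trans hph)
          _ = (2 + n) * ε := by ring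
      · have h2 := hab j
        rw [← ha, ← ha'] at h2
        rw [h0] at h2 ⊢
        rw [Complex.ofReal_zero, zero_mul, zero_sub, norm_neg, norm_mul,
          Complex.norm_exp_ofReal_mul_I, mul_one, Complex.norm_real, Real.norm_eq_abs]
        rw [zero_sub, abs_neg] at h2
        refine h2.trans ?_
        gcongr
        norm_num
      · have h2 := hab j
        rw [← ha, ← ha'] at h2
        rw [h0] at h2 ⊢
        rw [Complex.ofReal_zero, zero_mul, sub_zero, norm_mul,
          Complex.norm_exp_ofReal_mul_I, mul_one, Complex.norm_real, Real.norm_eq_abs]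
        rw [sub_zero] at h2
        refine h2.trans ?_
        gcongr
        norm_num
    refine (Finset.sum_le_sum fun j _ => key j).trans ?_
    rw [Finset.sum_const, Finset.card_univ, Fintype.card_fin, nsmul_eq_mul]
    exact hεδ

end field

end Vale.Agent.P184.H115
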