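import Vale.Agent.P184.H115.Dim1
import Vale.Agent.P184.H115.Dim2
import Vale.Agent.P184.H38.CSDef

/-!
# Elements with amenable centralizers of finite dimension are core-slow
-/

open scoped Pointwise

namespace Vale.Agent.P184.H115

open Vale.Agent.P184.Un Vale.Agent.P184.H38

/-- The centralizer of `x` is amenable, it has a length function `N` for which `x` is at most
polynomially distorted and its quotient by `x` has finite dimension with polynomial control, and
`N c` is at most `w m` if a conjugate of `c` is a product of `m` elements of `S`, where `w m` is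
less than any `exp (ε log² m)`. -/
def DimAmen {G : Type*} [Group G] (x : G) : Prop :=
  CoAmenable (Cen x) ⊥ ∧ ∃ (y : Cen x) (N : Cen x → ℝ) (n : ℕ) (C : ℝ) (d : ℕ),
    (y : G) = x ∧ DimData (Cen x) y N n C d ∧
    ∀ S : Finset G, ∃ w : ℕ → ℝ, Monotone w ∧
      (∀ (m : ℕ) (c : Cen x) (p : G), p⁻¹ * (c : G) * p ∈ (S : Set G) ^ m → N c ≤ w m) ∧
      ∀ ε : ℝ, 0 < ε → ∃ m₀ : ℕ, ∀ m : ℕ, m₀ ≤ m → w m ≤ Real.exp (ε * Real.log m ^ 2)

section

variable {G : Type*} [Group G]

theorem coAmenable_mono {C D D' : Subgroup G} (h : D ≤ D') (hC : CoAmenable C D) :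
    CoAmenable C D' := by
  obtain ⟨m, h1, h2, h3, h4⟩ := hC
  have hb : ∀ f : G → ℝ, BddInv C D' f → BddInv C D f := fun f hf =>
    ⟨hf.1, fun d hd c hc => hf.2 d (h hd) c hc⟩
  exact ⟨m, fun f g hf hg => h1 f g (hb f hf) (hb g hg), fun f hf h0 => h2 f (hb f hf) h0, h3,
    fun f hf k hk => h4 f (hb f hf) k hk⟩

/-- The gap. -/
theorem gap {φ : ℝ} (h0 : 0 < φ) (h1 : φ ≤ 1) :
    2 / ‖1 - Complex.exp ((φ : ℂ) * Complex.I)‖ ≤ 4 * (1 / φ) := by
  have h2 : ‖1 - Complex.exp ((φ : ℂ) * Complex.I)‖ = 2 * |Real.sin (φ / 2)| := by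
    rw [norm_sub_rev, mul_comm, Complex.norm_exp_I_mul_ofReal_sub_one]
    rw [Real.norm_eq_abs, abs_mul, abs_of_pos (by norm_num : (0 : ℝ) < 2)]
  have h3 : φ / 4 ≤ Real.sin (φ / 2) := by
    have h4 := Real.sin_gt_sub_cube (x := φ / 2) (by positivity)
    have h5 : (φ / 2) ^ 3 ≤ φ / 2 * (1 / 4) := by
      have : (φ / 2) ^ 2 ≤ 1 / 4 := by nlinarith
      calc (φ / 2) ^ 3 = φ / 2 * (φ / 2) ^ 2 := by ring
        _ ≤ φ / 2 * (1 / 4) := by gcongr
    linarith
  have h6 : 0 < Real.sin (φ / 2) := by linarith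
  rw [h2, abs_of_pos h6, div_le_iff₀ (by positivity), mul_one_div, div_mul_eq_mul_div,
    le_div_iff₀ h0]
  nlinarith

end

theorem coreSlow_of_dimAmen {G : Type*} [Group G] {x : G} (hx : DimAmen x) : CoreSlow x := by
  classical
  obtain ⟨hA, y, N, n, C0, d, hy, hD0, hw⟩ := hx
  have hyc : ∀ h : Cen x, y * h = h * y := fun h => by
    apply Subtype.ext
    rw [Subgroup.coe_mul, Subgroup.coe_mul, hy]
    exact (Dm.mem_cen.1 h.2).eq.symm
  -- a larger constant
  have hD : DimData (Cen x) y N n (max C0 1) d := by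
    have hm : C0 ≤ max C0 1 := le_max_left _ _
    refine ⟨hD0.len, fun k => (hD0.dist k).trans ?_, fun r hr => ?_⟩
    · have := len_nonneg hD0.len (y ^ k)
      gcongr
    · obtain ⟨z, h1, h2, h3, h4⟩ := hD0.cover r hr
      refine ⟨z, h1, fun j h a ha => ?_, h3, h4⟩
      obtain ⟨k, hk⟩ := h2 j h a ha
      refine ⟨k, hk.trans ?_⟩
      gcongr
  intro S hS1 hS δ hδ ε hε R₀
  obtain ⟨w, hwm, hwb, hwg⟩ := hw S
  obtain ⟨K, e, hK, hfield⟩ := exists_field hyc hD (le_max_right _ _) (Real.sqrt_pos.2 hδ)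
  -- constants
  set b : ℕ := max S.card 2 with hb
  have hb2 : 2 ≤ b := le_max_right _ _
  have hb0 : (0 : ℝ) < b := by positivity
  set c : ℝ := Real.log b + Real.log 3 with hc
  have hc0 : 0 < c := by
    have h1 : 0 ≤ Real.log b := Real.log_natCast_nonneg b
    have h2 : 0 < Real.log 3 := Real.log_pos (by norm_num)
    linarith
  set η : ℝ := ε / (2 * (n * e * c ^ 2 + 1)) with hη
  have hη0 : 0 < η := by positivity
  obtain ⟨m₀, hm₀⟩ := hwg η hη0
  -- the choice of R
  have hlog : 0 ≤ Real.log (4 * K) := Real.log_nonneg (by linarith)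
  obtain ⟨R1, hR1⟩ := exists_nat_ge (2 * (n * Real.log (4 * K)) / ε)
  set R : ℕ := max (max R₀ m₀) (max R1 1) with hR
  have hRR0 : R₀ ≤ R := (le_max_left _ _).trans (le_max_left _ _)
  have hRm0 : m₀ ≤ R := (le_max_right _ _).trans (le_max_left _ _)
  have hRR1 : R1 ≤ R := (le_max_left _ _).trans (le_max_right _ _)
  have hR1' : 1 ≤ R := (le_max_right _ _).trans (le_max_right _ _)
  have hR1r : (1 : ℝ) ≤ R := by exact_mod_cast hR1'
  -- the core
  set B : Finset G := S ^ R with hB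
  have hBc : (B : Set G) = (S : Set G) ^ R := by rw [hB, Finset.coe_pow]
  have hmem : ∀ g : G, g ∈ B ↔ g ∈ (S : Set G) ^ R := fun g => by
    rw [← hBc, Finset.mem_coe]
  have hBcard : B.card ≤ b ^ R := (Finset.card_pow_le).trans (Nat.pow_le_pow_left (le_max_left _ _) R)
  obtain ⟨f, hf1, hf2⟩ := Dm.exists_f (x := x) (S := (S : Set G)) (B := B)
    (fun s hs => Finset.mem_coe.2 (hS s (Finset.mem_coe.1 hs))) N w hwm hwb
  -- the scale
  set mR : ℕ := 2 * b ^ R + 1 with hmR
  have hmRR : m₀ ≤ mR := by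
    have h1 : R < b ^ R := Nat.lt_pow_self (by omega)
    omega
  have hlogm : Real.log mR ≤ c * R := by
    have h1 : (mR : ℝ) ≤ 3 * (b : ℝ) ^ R := by
      have h2 : (1 : ℝ) ≤ (b : ℝ) ^ R := one_le_pow₀ (by exact_mod_cast (by omega : 1 ≤ b))
      rw [hmR]
      push_cast
      linarith
    have h3 : (0 : ℝ) < mR := by rw [hmR]; positivity
    calc Real.log mR ≤ Real.log (3 * (b : ℝ) ^ R) := Real.log_le_log h3 h1
      _ = Real.log 3 + R * Real.log b := by
          rw [Real.log_mul (by norm_num) (by positivity), Real.log_pow]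
      _ ≤ Real.log 3 * R + Real.log b * R := by
          have h2 : 0 ≤ Real.log 3 := (Real.log_pos (by norm_num)).le
          nlinarith
      _ = c * R := by rw [hc]; ring
  have hlogm0 : 0 ≤ Real.log mR := Real.log_natCast_nonneg _
  set Λ : ℝ := Real.exp (η * (c * R) ^ 2) with hΛ
  have hΛ1 : 1 ≤ Λ := Real.one_le_exp (by positivity)
  have hwΛ : w (2 * B.card + 1) ≤ Λ := by
    refine (hwm (show 2 * B.card + 1 ≤ mR by omega)).trans ((hm₀ mR hmRR).trans ?_)
    rw [hΛ]
    gcongr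
  obtain ⟨φ, u, hφ0, hφ1, hφK, hu1, hu2, hu3⟩ := hfield Λ hΛ1
  -- powers of `x`
  have hu1' : ∀ h j, u (y⁻¹ * h) j = Complex.exp (((-φ : ℝ) : ℂ) * Complex.I) * u h j := by
    intro h j
    have h1 := hu1 (y⁻¹ * h) j
    rw [mul_inv_cancel_left] at h1
    rw [h1, ← mul_assoc, ← Complex.exp_add]
    rw [show ((-φ : ℝ) : ℂ) * Complex.I + (φ : ℂ) * Complex.I = 0 by push_cast; ring,
      Complex.exp_zero, one_mul]
  have huk : ∀ (k : ℤ) h j, u (y ^ k * h) j =
      Complex.exp (((φ * k : ℝ) : ℂ) * Complex.I) * u h j := by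
    intro k
    induction k with
    | zero => intro h j; simp
    | succ k ih =>
      intro h j
      rw [add_comm, zpow_add, zpow_one, mul_assoc, hu1, ih, ← mul_assoc, ← Complex.exp_add]
      congr 2
      push_cast
      ring
    | pred k ih =>
      intro h j
      rw [sub_eq_add_neg, add_comm, zpow_add, zpow_neg_one, mul_assoc, hu1', ih, ← mul_assoc,
        ← Complex.exp_add]
      congr 2
      push_cast
      ring
  have hj0 : ∃ j, u 1 j ≠ 0 := by
    by_contra hcon
    push Not at hcon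
    have h1 := hu2 1
    simp [hcon] at h1
  obtain ⟨j0, hj0⟩ := hj0
  -- the character
  let κ : G → ℤ := fun g => if h : ∃ k : ℤ, x ^ k = g then h.choose else 0
  have hκ : ∀ g, (∃ k : ℤ, x ^ k = g) → x ^ κ g = g := fun g h => by
    simp only [κ, dif_pos h]
    exact h.choose_spec
  have hyk : ∀ k : ℤ, ((y ^ k : Cen x) : G) = x ^ k := fun k => by
    rw [Subgroup.coe_zpow, hy]
  have hκx : Complex.exp (((φ * κ x : ℝ) : ℂ) * Complex.I) =
      Complex.exp ((φ : ℂ) * Complex.I) := by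
    have h1 : x ^ κ x = x := hκ x ⟨1, zpow_one x⟩
    have h2 : y ^ κ x = y := by
      apply Subtype.ext
      rw [hyk, h1, hy]
    have h3 := huk (κ x) 1 j0
    rw [h2, hu1] at h3
    exact (mul_right_cancel₀ hj0 h3).symm
  refine ⟨R, hRR0, Subgroup.zpowers x, n,
    fun g _ => Complex.exp (((φ * κ g : ℝ) : ℂ) * Complex.I), fun p j => u (f p) j,
    Subgroup.mem_zpowers x, ?_, coAmenable_mono bot_le hA, ?_, ?_, ?_, ?_, ?_, ?_⟩
  · rw [Subgroup.zpowers_le]
    exact Dm.mem_cen.2 (Commute.refl x)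
  · intro g _ j
    exact Complex.norm_exp_ofReal_mul_I _
  · intro j h1
    dsimp only at h1
    rw [hκx] at h1
    have h2 := gap hφ0 hφ1
    have h3 : ‖1 - Complex.exp ((φ : ℂ) * Complex.I)‖ = 2 * |Real.sin (φ / 2)| := by
      rw [norm_sub_rev, mul_comm, Complex.norm_exp_I_mul_ofReal_sub_one]
      rw [Real.norm_eq_abs, abs_mul, abs_of_pos (by norm_num : (0 : ℝ) < 2)]
    rw [h1, sub_self, norm_zero] at h3
    have h4 : 0 < Real.sin (φ / 2) :=
      Real.sin_pos_of_pos_of_lt_pi (by linarith) (by linarith [Real.pi_gt_three])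
    rw [abs_of_pos h4] at h3
    linarith
  · intro g hg p hp j
    obtain ⟨k, hk⟩ := Subgroup.mem_zpowers_iff.1 hg
    have h1 := hκ g ⟨k, hk⟩
    have h2 : g = ((y ^ κ g : Cen x) : G) := by rw [hyk, h1]
    have h3 : f (g * p) = y ^ κ g * f p := by
      conv_lhs => rw [h2]
      exact hf1 _ p ((hmem _).2 hp)
    dsimp only
    rw [h3, huk]
  · intro p _
    exact hu2 (f p)
  · intro p hp s hs hps
    have h1 := hf2 p s (Finset.mem_coe.2 hs) ((hmem _).2 hp) ((hmem _).2 hps)
    have h2 := hu3 (f p) (f (p * s)) (h1.trans hwΛ)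
    dsimp only
    have h3 : ∑ j, ‖u (f (p * s)) j - u (f p) j‖ ^ 2 ≤
        (∑ j, ‖u (f (p * s)) j - u (f p) j‖) ^ 2 :=
      Finset.sum_sq_le_sq_sum_of_nonneg fun j _ => norm_nonneg _
    have h4 : ∑ j, ‖u (f (p * s)) j - u (f p) j‖ ≤ √δ := by
      refine le_trans (le_of_eq (Finset.sum_congr rfl fun j _ => norm_sub_rev _ _)) h2
    refine h3.trans ?_
    calc (∑ j, ‖u (f (p * s)) j - u (f p) j‖) ^ 2 ≤ √δ ^ 2 :=
          pow_le_pow_left₀ (Finset.sum_nonneg fun j _ => norm_nonneg _) h4 2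
      _ = δ := Real.sq_sqrt hδ.le
  · dsimp only
    rw [hκx, Finset.prod_const, Finset.card_univ, Fintype.card_fin]
    have h1 : 2 / ‖1 - Complex.exp ((φ : ℂ) * Complex.I)‖ ≤ 4 * (K * Λ ^ e) :=
      (gap hφ0 hφ1).trans (by gcongr)
    have h2 : (4 * (K * Λ ^ e)) ^ n = Real.exp (n * Real.log (4 * K) +
        n * e * (η * (c * R) ^ 2)) := by
      have e1 : Λ ^ e = Real.exp (e * (η * (c * R) ^ 2)) := by rw [hΛ, ← Real.exp_nat_mul]
      have e2 : 4 * (K * Λ ^ e) = Real.exp (Real.log (4 * K) + e * (η * (c * R) ^ 2)) := by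
        rw [Real.exp_add, Real.exp_log (by linarith), e1]
        ring
      rw [e2, ← Real.exp_nat_mul]
      congr 1
      ring
    calc (2 / ‖1 - Complex.exp ((φ : ℂ) * Complex.I)‖) ^ n ≤ (4 * (K * Λ ^ e)) ^ n := by gcongr
      _ = Real.exp (n * Real.log (4 * K) + n * e * (η * (c * R) ^ 2)) := h2
      _ ≤ Real.exp (ε * R ^ 2) := by
          refine Real.exp_le_exp.2 ?_
          have h3 : n * Real.log (4 * K) ≤ ε / 2 * R ^ 2 := by
            have h4 : 2 * (n * Real.log (4 * K)) / ε ≤ R := hR1.trans (by exact_mod_cast hRR1)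
            rw [div_le_iff₀ hε] at h4
            have h5 : ε / 2 * R ≤ ε / 2 * R ^ 2 := by
              gcongr
              exact le_self_pow₀ hR1r (by norm_num)
            linarith
          have h5 : n * e * (η * (c * R) ^ 2) ≤ ε / 2 * R ^ 2 := by
            have h6 : n * e * c ^ 2 * η ≤ ε / 2 := by
              rw [hη]
              have h7 : (0 : ℝ) ≤ n * e * c ^ 2 := by positivity
              rw [mul_div_assoc', div_le_div_iff₀ (by positivity) (by norm_num)]
              nlinarith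
            calc (n : ℝ) * e * (η * (c * R) ^ 2) = n * e * c ^ 2 * η * R ^ 2 := by ring
              _ ≤ ε / 2 * R ^ 2 := by gcongr
          linarith

end Vale.Agent.P184.H115
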