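import Vale.Agent.P184.H115.Dim3
import Vale.Agent.P184.AG.Defs

/-!
# Groups with a doubling length function have finite dimension
-/

open scoped Pointwise

namespace Vale.Agent.P184.H115

open Vale.Agent.P184.Un

section colour

/-- Greedy colouring. -/
theorem exists_colour {V : Type*} (E : V → V → Prop) (hE : ∀ a b, E a b → E b a) (d : ℕ)
    (hd : ∀ a, {b | E a b}.Finite ∧ {b | E a b}.ncard ≤ d) :
    ∃ c : V → Fin (d + 1), ∀ a b, E a b → a ≠ b → c a ≠ c b := by
  classical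
  have hwf : WellFounded (WellOrderingRel (α := V)) := IsWellFounded.wf
  have hmex : ∀ S : Set (Fin (d + 1)), ∃ m : Fin (d + 1), S.ncard ≤ d → m ∉ S := fun S => by
    by_cases h : S.ncard ≤ d
    · have h1 : S ≠ Set.univ := by
        intro h2
        rw [h2, Set.ncard_univ, Nat.card_eq_fintype_card, Fintype.card_fin] at h
        omega
      obtain ⟨m, hm⟩ := (Set.ne_univ_iff_exists_notMem S).1 h1
      exact ⟨m, fun _ => hm⟩
    · exact ⟨0, fun h' => absurd h' h⟩
  choose mex hmex using hmex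
  let c : V → Fin (d + 1) := hwf.fix fun a ih =>
    mex {m | ∃ (b : V) (h : WellOrderingRel b a), E a b ∧ ih b h = m}
  have hc : ∀ a, c a = mex {m | ∃ (b : V) (_ : WellOrderingRel b a), E a b ∧ c b = m} := fun a => by
    simp only [c]
    rw [hwf.fix_eq]
  have key : ∀ a b, E a b → WellOrderingRel b a → c a ≠ c b := by
    intro a b hab hlt heq
    have h1 : {m | ∃ (b : V) (_ : WellOrderingRel b a), E a b ∧ c b = m}.ncard ≤ d := by
      have h2 : {m | ∃ (b : V) (_ : WellOrderingRel b a), E a b ∧ c b = m} ⊆ c '' {b | E a b} := by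
        rintro m ⟨b, -, h3, h4⟩
        exact ⟨b, h3, h4⟩
      exact (Set.ncard_le_ncard h2 ((hd a).1.image c)).trans
        ((Set.ncard_image_le (hd a).1).trans (hd a).2)
    have h2 := hmex _ h1
    rw [← hc a] at h2
    exact h2 ⟨b, hlt, hab, heq.symm⟩
  refine ⟨c, fun a b hab hne heq => ?_⟩
  rcases trichotomous_of (WellOrderingRel (α := V)) a b with h | h | h
  · exact key b a (hE _ _ hab) h heq.symm
  · exact hne h
  · exact key a b hab h heq

end colour

section

variable {H : Type*} [Group H]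

/-- `h'` is at distance at most `s` from `h`, up to powers of `x`. -/
def near (x : H) (N : H → ℝ) (s : ℝ) (h h' : H) : Prop := ∃ k : ℤ, N (h⁻¹ * x ^ k * h') ≤ s

variable {x : H} (hx : ∀ h : H, x * h = h * x) {N : H → ℝ} (hN : IsLen N)

theorem near_mono {s t : ℝ} (hst : s ≤ t) {h h' : H} (hn : near x N s h h') : near x N t h h' := by
  obtain ⟨k, hk⟩ := hn
  exact ⟨k, hk.trans hst⟩

theorem near_of_len {s : ℝ} {h h' : H} (hh : N (h⁻¹ * h') ≤ s) : near x N s h h' :=
  ⟨0, by rwa [zpow_zero, mul_one]⟩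

include hx hN in
theorem near_symm {s : ℝ} {h h' : H} (hn : near x N s h h') : near x N s h' h := by
  obtain ⟨k, hk⟩ := hn
  refine ⟨-k, ?_⟩
  have hxc : ∀ (k : ℤ) (h : H), x ^ k * h = h * x ^ k := fun k h =>
    ((show Commute x h from hx h).zpow_left k).eq
  have h1 : h'⁻¹ * x ^ (-k) * h = (h⁻¹ * x ^ k * h')⁻¹ := by
    rw [zpow_neg]
    group
  rw [h1, hN.2.1]
  exact hk

include hx hN in
theorem near_trans {s t : ℝ} {h h' h'' : H} (h1 : near x N s h h') (h2 : near x N t h' h'') :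
    near x N (s + t) h h'' := by
  obtain ⟨k, hk⟩ := h1
  obtain ⟨l, hl⟩ := h2
  refine ⟨k + l, ?_⟩
  have hxc : ∀ (k : ℤ) (h : H), x ^ k * h = h * x ^ k := fun k h =>
    ((show Commute x h from hx h).zpow_left k).eq
  have e : h⁻¹ * x ^ (k + l) * h'' = (h⁻¹ * x ^ k * h') * (h'⁻¹ * x ^ l * h'') := by
    rw [zpow_add]
    group
  rw [e]
  have := hN.2.2 (h⁻¹ * x ^ k * h') (h'⁻¹ * x ^ l * h'')
  linarith

theorem near_shift {s : ℝ} {h h' : H} : near x N s (x * h) h' ↔ near x N s h h' := by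
  constructor
  · rintro ⟨k, hk⟩
    refine ⟨k - 1, ?_⟩
    have e : h⁻¹ * x ^ (k - 1) * h' = (x * h)⁻¹ * x ^ k * h' := by
      rw [sub_eq_add_neg, add_comm, zpow_add, zpow_neg_one]
      group
    rw [e]
    exact hk
  · rintro ⟨k, hk⟩
    refine ⟨k + 1, ?_⟩
    have e : (x * h)⁻¹ * x ^ (k + 1) * h' = h⁻¹ * x ^ k * h' := by
      rw [add_comm, zpow_add, zpow_one]
      group
    rw [e]
    exact hk

/-- A maximal separated set. -/
theorem exists_net (s : ℝ) : ∃ A : Set H, (∀ a ∈ A, ∀ b ∈ A, a ≠ b → ¬ near x N s a b) ∧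
    ∀ h, h ∈ A ∨ ∃ a ∈ A, near x N s h a ∨ near x N s a h := by
  obtain ⟨A, hA⟩ := zorn_subset {A : Set H | ∀ a ∈ A, ∀ b ∈ A, a ≠ b → ¬ near x N s a b} (by
    intro c hc hch
    refine ⟨⋃₀ c, ?_, fun t ht => Set.subset_sUnion_of_mem ht⟩
    rintro a ⟨t, ht, hat⟩ b ⟨t', ht', hbt'⟩ hab
    rcases hch.total ht ht' with h | h
    · exact hc ht' a (h hat) b hbt' hab
    · exact hc ht a hat b (h hbt') hab)
  refine ⟨A, hA.prop, fun h => ?_⟩
  by_cases hh : h ∈ A
  · exact Or.inl hh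
  right
  by_contra hcon
  push Not at hcon
  have h1 : insert h A ∈ {A : Set H | ∀ a ∈ A, ∀ b ∈ A, a ≠ b → ¬ near x N s a b} := by
    rintro a (rfl | ha) b (rfl | hb) hab
    · exact absurd rfl hab
    · exact (hcon b hb).1
    · exact (hcon a ha).2
    · exact hA.prop a ha b hb hab
  exact hh (hA.le_of_ge h1 (Set.subset_insert h A) (Set.mem_insert h A))

include hx hN in
/-- The size of separated sets. -/
theorem card_net {K : ℝ} (hK : Dbl N K) (hK1 : 1 ≤ K) {r : ℝ} (hr : 1 ≤ r) {A : Set H}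
    (hA : ∀ a ∈ A, ∀ b ∈ A, a ≠ b → ¬ near x N r a b) (a : H) :
    {b | b ∈ A ∧ near x N (5 * r) a b}.Finite ∧
      ({b | b ∈ A ∧ near x N (5 * r) a b}.ncard : ℝ) ≤
        max (K ^ 4) ({h : H | N h ≤ 11}.ncard : ℝ) := by
  classical
  obtain ⟨hfin, hdbl⟩ := hK
  set U : Set H := {b | b ∈ A ∧ near x N (5 * r) a b} with hU
  have hch : ∀ b : H, ∃ g : H, near x N (5 * r) a b → N g ≤ 5 * r ∧ ∃ k : ℤ, g = a⁻¹ * x ^ k * b :=
    fun b => by
      by_cases h : near x N (5 * r) a b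
      · obtain ⟨k, hk⟩ := h
        exact ⟨a⁻¹ * x ^ k * b, fun _ => ⟨hk, k, rfl⟩⟩
      · exact ⟨1, fun h' => absurd h' h⟩
  choose g hg using hch
  have hxc : ∀ (k : ℤ) (h : H), x ^ k * h = h * x ^ k := fun k h =>
    ((show Commute x h from hx h).zpow_left k).eq
  -- close elements have equal centres
  have hgg : ∀ b ∈ U, ∀ b' ∈ U, N ((g b)⁻¹ * g b') ≤ r → b = b' := by
    intro b hb b' hb' hN'
    by_contra hne
    refine hA b hb.1 b' hb'.1 hne ?_
    obtain ⟨-, k, hk⟩ := hg b hb.2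
    obtain ⟨-, k', hk'⟩ := hg b' hb'.2
    refine ⟨-k + k', ?_⟩
    have e : (g b)⁻¹ * g b' = b⁻¹ * x ^ (-k + k') * b' := by
      rw [hk, hk', zpow_add, zpow_neg]
      group
    rw [← e]
    exact hN'
  have hN1 : N 1 = 0 := hN.1
  have hinj : Set.InjOn g U := by
    intro b hb b' hb' he
    refine hgg b hb b' hb' ?_
    rw [he, inv_mul_cancel, hN1]
    linarith
  have hUf : U.Finite := by
    refine Set.Finite.of_finite_image ((hfin (5 * r)).subset ?_) hinj
    rintro _ ⟨b, hb, rfl⟩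
    exact (hg b hb.2).1
  refine ⟨hUf, ?_⟩
  -- packing
  have hpack : (U.ncard : ℝ) * ({h : H | N h ≤ r / 2}.ncard : ℝ) ≤
      ({h : H | N h ≤ 5 * r + r / 2}.ncard : ℝ) := by
    have h1 : (U ×ˢ {h : H | N h ≤ r / 2}).ncard ≤ {h : H | N h ≤ 5 * r + r / 2}.ncard := by
      refine Set.ncard_le_ncard_of_injOn (fun p => g p.1 * p.2) ?_ ?_ (hfin _)
      · rintro ⟨b, h⟩ ⟨hb, hh⟩
        have h2 := (hg b hb.2).1
        have h3 := hN.2.2 (g b) h
        have h4 : N h ≤ r / 2 := hh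
        change N (g b * h) ≤ 5 * r + r / 2
        linarith
      · rintro ⟨b, h⟩ ⟨hb, hh⟩ ⟨b', h'⟩ ⟨hb', hh'⟩ he
        have he' : g b * h = g b' * h' := he
        have h4 : N h ≤ r / 2 := hh
        have h4' : N h' ≤ r / 2 := hh'
        have h5 : b = b' := by
          refine hgg b hb b' hb' ?_
          have e : (g b)⁻¹ * g b' = h * h'⁻¹ := by
            rw [eq_mul_inv_iff_mul_eq, mul_assoc, ← he', inv_mul_cancel_left]
          rw [e]
          have := hN.2.2 h h'⁻¹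
          rw [hN.2.1] at this
          linarith
        subst h5
        have h6 : h = h' := mul_left_cancel he'
        rw [h6]
    rw [Set.ncard_prod] at h1
    exact_mod_cast h1
  have hpos : (1 : ℝ) ≤ ({h : H | N h ≤ r / 2}.ncard : ℝ) := by
    have : 0 < {h : H | N h ≤ r / 2}.ncard := by
      rw [Set.ncard_pos (hfin _)]
      exact ⟨1, by change N 1 ≤ r / 2; rw [hN1]; linarith⟩
    exact_mod_cast this
  have hmono : ∀ s t : ℝ, s ≤ t → ({h : H | N h ≤ s}.ncard : ℝ) ≤ ({h : H | N h ≤ t}.ncard : ℝ) :=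
    fun s t hst => by
      exact_mod_cast Set.ncard_le_ncard (fun h (hh : N h ≤ s) => hh.trans hst) (hfin t)
  by_cases hr2 : 2 ≤ r
  · refine le_trans ?_ (le_max_left _ _)
    have d1 := hdbl (r / 2) (by linarith)
    have d2 := hdbl (2 * (r / 2)) (by linarith)
    have d3 := hdbl (2 * (2 * (r / 2))) (by linarith)
    have d4 := hdbl (2 * (2 * (2 * (r / 2)))) (by linarith)
    have hle := hmono (5 * r + r / 2) (2 * (2 * (2 * (2 * (r / 2))))) (by linarith)
    have hK0 : 0 ≤ K := by linarith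
    have h2 : (U.ncard : ℝ) * ({h : H | N h ≤ r / 2}.ncard : ℝ) ≤
        K ^ 4 * ({h : H | N h ≤ r / 2}.ncard : ℝ) := by
      calc _ ≤ _ := hpack
        _ ≤ _ := hle
        _ ≤ _ := d4
        _ ≤ K * (K * _) := mul_le_mul_of_nonneg_left d3 hK0
        _ ≤ K * (K * (K * _)) :=
            mul_le_mul_of_nonneg_left (mul_le_mul_of_nonneg_left d2 hK0) hK0
        _ ≤ K * (K * (K * (K * _))) :=
            mul_le_mul_of_nonneg_left (mul_le_mul_of_nonneg_left
              (mul_le_mul_of_nonneg_left d1 hK0) hK0) hK0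
        _ = K ^ 4 * ({h : H | N h ≤ r / 2}.ncard : ℝ) := by ring
    exact le_of_mul_le_mul_right h2 (by linarith)
  · refine le_trans ?_ (le_max_right _ _)
    push Not at hr2
    have hle := hmono (5 * r + r / 2) 11 (by linarith)
    have h0 : (0 : ℝ) ≤ (U.ncard : ℝ) := Nat.cast_nonneg _
    nlinarith

include hx hN in
/-- **Doubling groups have finite dimension.** -/
theorem dimData_of_dbl {K : ℝ} (hK : Dbl N K) {C : ℝ} {d : ℕ}
    (hd : ∀ k : ℤ, |(k : ℝ)| ≤ C * (1 + N (x ^ k)) ^ d) :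
    ∃ (n : ℕ) (C' : ℝ) (d' : ℕ), DimData H x N n C' d' := by
  classical
  -- we may assume `1 ≤ K`
  wlog hK1 : 1 ≤ K generalizing K
  · refine this (K := max K 1) ⟨hK.1, fun r hr => (hK.2 r hr).trans ?_⟩ (le_max_right _ _)
    exact mul_le_mul_of_nonneg_right (le_max_left _ _) (Nat.cast_nonneg _)
  obtain ⟨m, hm⟩ := exists_nat_ge (max (K ^ 4) ({h : H | N h ≤ 11}.ncard : ℝ))
  refine ⟨m + 1, max C 2, d + 1, hN, fun k => ?_, fun r hr => ?_⟩
  · have h1 : 1 ≤ 1 + N (x ^ k) := by linarith [len_nonneg hN (x ^ k)]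
    have h2 : (1 + N (x ^ k)) ^ d ≤ (1 + N (x ^ k)) ^ (d + 1) := pow_le_pow_right₀ h1 (by omega)
    have h3 : 0 ≤ (1 + N (x ^ k)) ^ d := by positivity
    calc |(k : ℝ)| ≤ C * (1 + N (x ^ k)) ^ d := hd k
      _ ≤ max C 2 * (1 + N (x ^ k)) ^ d := mul_le_mul_of_nonneg_right (le_max_left _ _) h3
      _ ≤ max C 2 * (1 + N (x ^ k)) ^ (d + 1) :=
        mul_le_mul_of_nonneg_left h2 (by linarith [le_max_right C 2])
  obtain ⟨A, hA, hAmax⟩ := exists_net (x := x) (N := N) r
  have hnear : ∀ h, ∃ a ∈ A, near x N r h a := fun h => by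
    rcases hAmax h with hh | ⟨a, ha, h1 | h1⟩
    · exact ⟨h, hh, near_of_len (by rw [inv_mul_cancel, hN.1]; linarith)⟩
    · exact ⟨a, ha, h1⟩
    · exact ⟨a, ha, near_symm hx hN h1⟩
  -- the colouring
  obtain ⟨col, hcol⟩ := exists_colour (V := H) (fun a b => a ∈ A ∧ b ∈ A ∧ near x N (5 * r) a b)
    (fun a b h => ⟨h.2.1, h.1, near_symm hx hN h.2.2⟩) m (fun a => by
      have h1 := card_net hx hN hK hK1 hr hA a
      have h2 : {b | a ∈ A ∧ b ∈ A ∧ near x N (5 * r) a b} ⊆ {b | b ∈ A ∧ near x N (5 * r) a b} :=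
        fun b hb => hb.2
      refine ⟨h1.1.subset h2, ?_⟩
      have h3 : ({b | b ∈ A ∧ near x N (5 * r) a b}.ncard : ℝ) ≤ m := h1.2.trans hm
      exact (Set.ncard_le_ncard h2 h1.1).trans (by exact_mod_cast h3))
  have huniq : ∀ h h' a a' : H, N (h⁻¹ * h') ≤ r → a ∈ A → a' ∈ A → near x N (2 * r) h a →
      near x N (2 * r) h' a' → col a = col a' → a = a' := by
    intro h h' a a' hh ha ha' h1 h2 hc
    by_contra hne
    refine hcol a a' ⟨ha, ha', ?_⟩ hne hc
    have h3 := near_trans hx hN (near_symm hx hN h1) (near_trans hx hN (near_of_len hh) h2)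
    refine near_mono (le_of_eq ?_) h3
    ring
  let P : Fin (m + 1) → H → H → Prop := fun j h a => a ∈ A ∧ col a = j ∧ near x N (2 * r) h a
  let z : Fin (m + 1) → H → Option H := fun j h =>
    if hh : ∃ a, P j h a then some hh.choose else none
  have hz : ∀ j h a, z j h = some a → P j h a := fun j h a ha => by
    by_cases hh : ∃ a, P j h a
    · simp only [z, dif_pos hh, Option.some.injEq] at ha
      rw [← ha]
      exact hh.choose_spec
    · simp only [z, dif_neg hh] at ha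
      exact absurd ha (by simp)
  have hz' : ∀ j h a, P j h a → z j h = some a := fun j h a ha => by
    have hh : ∃ a, P j h a := ⟨a, ha⟩
    simp only [z, dif_pos hh, Option.some.injEq]
    have h1 := hh.choose_spec
    refine huniq h h _ a ?_ h1.1 ha.1 h1.2.2 ha.2.2 (h1.2.1.trans ha.2.1.symm)
    rw [inv_mul_cancel, hN.1]
    linarith
  refine ⟨z, ?_, ?_, ?_, ?_⟩
  · intro j h
    have : P j (x * h) = P j h := by
      funext a
      simp only [P, near_shift]
    simp only [z, this]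
  · intro j h a ha
    obtain ⟨k, hk⟩ := (hz j h a ha).2.2
    refine ⟨k, hk.trans ?_⟩
    have h1 : r ≤ r ^ (d + 1) := le_self_pow₀ hr (by omega)
    have h2 : (2 : ℝ) ≤ max C 2 := le_max_right _ _
    have h3 : 0 ≤ r ^ (d + 1) := by positivity
    nlinarith
  · intro j h h' a a' hh ha ha'
    have h1 := hz j h a ha
    have h2 := hz j h' a' ha'
    exact huniq h h' a a' hh h1.1 h2.1 h1.2.2 h2.2.2 (h1.2.1.trans h2.2.1.symm)
  · intro h
    obtain ⟨a, ha, hna⟩ := hnear h
    refine ⟨col a, a, fun h' hh' => hz' _ _ _ ⟨ha, rfl, ?_⟩⟩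
    have h1 : near x N r h' h := near_symm hx hN (near_of_len hh')
    refine near_mono (le_of_eq ?_) (near_trans hx hN h1 hna)
    ring

end

end Vale.Agent.P184.H115
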