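import Vale.Agent.P184.H115.Dim4

/-!
# Subgroups with a doubling length function are amenable, and the final criterion
-/

open scoped Pointwise

namespace Vale.Agent.P184.H115

open Vale.Agent.P184.Un

section

variable {H : Type*} [Group H] {N : H → ℝ} (hN : IsLen N) {K : ℝ}

include hN in
/-- Almost invariant balls. -/
theorem exists_ball (hK : Dbl N K) (t η : ℝ) (ht : 1 ≤ t) (hη : 0 < η) :
    ∃ ρ : ℝ, 1 ≤ ρ ∧
      ({h : H | N h ≤ ρ + t}.ncard : ℝ) ≤ (1 + η) * ({h : H | N h ≤ ρ}.ncard : ℝ) := by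
  obtain ⟨m, hm⟩ := pow_unbounded_of_one_lt (max K 1) (show 1 < 1 + η by linarith)
  have hm0 : m ≠ 0 := by
    rintro rfl
    rw [pow_zero] at hm
    exact absurd hm (not_lt.2 (le_max_right _ _))
  have hm1 : (1 : ℝ) ≤ m := by exact_mod_cast Nat.one_le_iff_ne_zero.2 hm0
  by_contra hcon
  push Not at hcon
  have hmt : 1 ≤ m * t := by nlinarith
  have key : ∀ j : ℕ, (1 + η) ^ j * ({h : H | N h ≤ m * t}.ncard : ℝ) ≤
      ({h : H | N h ≤ m * t + j * t}.ncard : ℝ) := by
    intro j
    induction j with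
    | zero => simp
    | succ j ih =>
      have h1 := hcon (m * t + j * t) (by
        have : (0 : ℝ) ≤ j * t := by positivity
        linarith)
      calc (1 + η) ^ (j + 1) * ({h : H | N h ≤ m * t}.ncard : ℝ)
          = (1 + η) * ((1 + η) ^ j * ({h : H | N h ≤ m * t}.ncard : ℝ)) := by ring
        _ ≤ (1 + η) * ({h : H | N h ≤ m * t + j * t}.ncard : ℝ) := by gcongr
        _ ≤ ({h : H | N h ≤ m * t + j * t + t}.ncard : ℝ) := h1.le
        _ = ({h : H | N h ≤ m * t + (j + 1 : ℕ) * t}.ncard : ℝ) := by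
            rw [show (m : ℝ) * t + j * t + t = m * t + (j + 1 : ℕ) * t by push_cast; ring]
  have h1 := key m
  have h2 := hK.2 (m * t) hmt
  rw [two_mul] at h2
  have hpos : (0 : ℝ) < ({h : H | N h ≤ m * t}.ncard : ℝ) := by
    have : 0 < {h : H | N h ≤ m * t}.ncard := by
      rw [Set.ncard_pos (hK.1 _)]
      exact ⟨1, by change N 1 ≤ m * t; rw [hN.1]; linarith⟩
    exact_mod_cast this
  have h3 : (1 + η) ^ m ≤ K := le_of_mul_le_mul_right (h1.trans h2) hpos
  exact absurd (hm.trans_le h3) (not_lt.2 (le_max_left _ _))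

include hN in
/-- Averages over almost invariant balls are almost invariant. -/
theorem avg_shift (hK : Dbl N K) {ρ t η : ℝ}
    (hb : ({h : H | N h ≤ ρ + t}.ncard : ℝ) ≤ (1 + η) * ({h : H | N h ≤ ρ}.ncard : ℝ))
    {s : H} (hs : N s ≤ t) {f : H → ℝ} {M : ℝ} (hf : ∀ h, |f h| ≤ M) :
    |∑ h ∈ (hK.1 ρ).toFinset, f (h * s) - ∑ h ∈ (hK.1 ρ).toFinset, f h| ≤
      2 * M * η * ((hK.1 ρ).toFinset.card : ℝ) := by
  classical
  set F := (hK.1 ρ).toFinset with hF
  have hFc : (F.card : ℝ) = ({h : H | N h ≤ ρ}.ncard : ℝ) := by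
    rw [Set.ncard_eq_toFinset_card _ (hK.1 ρ)]
  have hM : 0 ≤ M := (abs_nonneg _).trans (hf 1)
  set F' := F.image (fun h => h * s) with hF'
  have hsum : ∑ h ∈ F, f (h * s) = ∑ h ∈ F', f h := by
    rw [hF', Finset.sum_image fun a _ b _ hab => mul_right_cancel hab]
  have hcard : F'.card = F.card := by
    rw [hF']
    exact Finset.card_image_of_injective _ (mul_left_injective s)
  have hd1 : ((F' \ F).card : ℝ) ≤ η * F.card := by
    have h1 : F' ∪ F ⊆ (hK.1 (ρ + t)).toFinset := by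
      have ht : 0 ≤ t := (len_nonneg hN s).trans hs
      intro g hg
      rw [Set.Finite.mem_toFinset]
      change N g ≤ ρ + t
      rcases Finset.mem_union.1 hg with hg | hg
      · rw [hF', Finset.mem_image] at hg
        obtain ⟨h, hh, rfl⟩ := hg
        rw [hF, Set.Finite.mem_toFinset] at hh
        have h2 : N h ≤ ρ := hh
        have h3 := hN.2.2 h s
        linarith
      · rw [hF, Set.Finite.mem_toFinset] at hg
        have h2 : N g ≤ ρ := hg
        linarith
    have h2 : (F' \ F).card + F.card = (F' ∪ F).card := by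
      rw [← Finset.card_union_of_disjoint Finset.sdiff_disjoint, Finset.sdiff_union_self_eq_union]
    have h3 : ((F' ∪ F).card : ℝ) ≤ ({h : H | N h ≤ ρ + t}.ncard : ℝ) := by
      rw [Set.ncard_eq_toFinset_card _ (hK.1 (ρ + t))]
      exact_mod_cast Finset.card_le_card h1
    have h4 : ((F' \ F).card : ℝ) + F.card = ((F' ∪ F).card : ℝ) := by exact_mod_cast h2
    rw [← hFc] at hb
    linarith
  have hd2 : ((F \ F').card : ℝ) ≤ η * F.card := by
    have h1 : (F \ F').card = (F' \ F).card := by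
      have h2 := Finset.card_sdiff_add_card_inter F F'
      have h3 := Finset.card_sdiff_add_card_inter F' F
      rw [Finset.inter_comm] at h3
      omega
    rw [h1]
    exact hd1
  have e1 : ∑ h ∈ F', f h - ∑ h ∈ F, f h = ∑ h ∈ F' \ F, f h - ∑ h ∈ F \ F', f h := by
    have h1 := Finset.sum_inter_add_sum_sdiff F' F f
    have h2 := Finset.sum_inter_add_sum_sdiff F F' f
    rw [Finset.inter_comm] at h2
    linarith
  have hb1 : ∀ T : Finset H, |∑ h ∈ T, f h| ≤ M * T.card := fun T => by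
    refine (Finset.abs_sum_le_sum_abs _ _).trans ((Finset.sum_le_sum fun h _ => hf h).trans ?_)
    rw [Finset.sum_const, nsmul_eq_mul, mul_comm]
  rw [hsum, e1]
  refine (abs_sub _ _).trans ?_
  have h1 := hb1 (F' \ F)
  have h2 := hb1 (F \ F')
  have h3 := mul_le_mul_of_nonneg_left hd1 hM
  have h4 := mul_le_mul_of_nonneg_left hd2 hM
  linarith

end

/-- **Subgroups with a doubling length function are amenable.** -/
theorem coAmenable_of_dbl {G : Type*} [Group G] {C : Subgroup G} {N : C → ℝ} (hN : IsLen N)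
    {K : ℝ} (hK : Dbl N K) : CoAmenable C ⊥ := by
  classical
  have hex : ∀ i : ℕ, ∃ ρ : ℝ, 1 ≤ ρ ∧ ({h : C | N h ≤ ρ + (i + 1 : ℝ)}.ncard : ℝ) ≤
      (1 + 1 / ((i : ℝ) + 1)) * ({h : C | N h ≤ ρ}.ncard : ℝ) := fun i =>
    exists_ball hN hK (i + 1) (1 / ((i : ℝ) + 1)) (by
      have : (0 : ℝ) ≤ i := Nat.cast_nonneg i
      linarith) (by positivity)
  choose ρ hρ1 hρ using hex
  let F : ℕ → Finset C := fun i => (hK.1 (ρ i)).toFinset
  have hF0 : ∀ i, (0 : ℝ) < (F i).card := fun i => by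
    have : 0 < (F i).card := by
      rw [Finset.card_pos]
      refine ⟨1, ?_⟩
      simp only [F]
      rw [Set.Finite.mem_toFinset]
      change N 1 ≤ ρ i
      rw [hN.1]
      linarith [hρ1 i]
    exact_mod_cast this
  let U : Filter ℕ := (Filter.hyperfilter ℕ : Filter ℕ)
  let A : (G → ℝ) → ℕ → ℝ := fun f i => (∑ c ∈ F i, f (c : G)) / (F i).card
  have hA : ∀ f : G → ℝ, (∃ M, ∀ c ∈ C, |f c| ≤ M) → ∃ l, Filter.Tendsto (A f) U (nhds l) := by
    rintro f ⟨M, hM⟩
    have h1 : ∀ i, A f i ∈ Set.Icc (-M) M := by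
      intro i
      rw [Set.mem_Icc, ← abs_le]
      simp only [A]
      rw [abs_div, abs_of_pos (hF0 i), div_le_iff₀ (hF0 i)]
      refine (Finset.abs_sum_le_sum_abs _ _).trans ?_
      refine (Finset.sum_le_sum fun (c : C) _ => hM (c : G) c.2).trans ?_
      rw [Finset.sum_const, nsmul_eq_mul, mul_comm]
    obtain ⟨l, _, hl⟩ := (isCompact_Icc (a := -M) (b := M)).ultrafilter_le_nhds
      ((Filter.hyperfilter ℕ).map (A f)) (by
        rw [Filter.le_principal_iff]
        exact Filter.mem_map.2 (Filter.univ_mem' h1))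
    exact ⟨l, hl⟩
  have hlim : ∀ f : G → ℝ, (∃ M, ∀ c ∈ C, |f c| ≤ M) →
      Filter.Tendsto (A f) U (nhds (Filter.limUnder U (A f))) :=
    fun f hf => tendsto_nhds_limUnder (hA f hf)
  refine ⟨fun f => Filter.limUnder U (A f), ?_, ?_, ?_, ?_⟩
  · rintro f g ⟨hf, -⟩ ⟨hg, -⟩
    refine Filter.Tendsto.limUnder_eq ?_
    have h1 := (hlim f hf).add (hlim g hg)
    refine h1.congr fun i => ?_
    simp only [A, Finset.sum_add_distrib, add_div]
  · rintro f ⟨hf, -⟩ h0
    refine ge_of_tendsto' (hlim f hf) fun i => ?_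
    exact div_nonneg (Finset.sum_nonneg fun c _ => h0 _ c.2) (hF0 i).le
  · intro r
    refine Filter.Tendsto.limUnder_eq ?_
    refine tendsto_const_nhds.congr fun i => ?_
    simp only [A, Finset.sum_const, nsmul_eq_mul]
    rw [mul_comm, mul_div_assoc, div_self (hF0 i).ne', mul_one]
  · rintro f ⟨⟨M, hM⟩, -⟩ k hk
    refine Filter.Tendsto.limUnder_eq ?_
    have h1 : Filter.Tendsto (fun i : ℕ => A (fun c => f (c * k)) i - A f i) U (nhds 0) := by
      refine Filter.Tendsto.mono_left ?_ Nat.hyperfilter_le_atTop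
      obtain ⟨i0, hi0⟩ := exists_nat_ge (N ⟨k, hk⟩)
      have h2 : ∀ᶠ i : ℕ in Filter.atTop, ‖A (fun c => f (c * k)) i - A f i‖ ≤
          (2 * M) * (1 / ((i : ℝ) + 1)) := by
        filter_upwards [Filter.eventually_ge_atTop i0] with i hi
        have h3 : N ⟨k, hk⟩ ≤ (i + 1 : ℝ) := by
          have : (i0 : ℝ) ≤ i := by exact_mod_cast hi
          linarith
        have h4 := avg_shift hN hK (hρ i) h3 (f := fun c : C => f (c : G)) (M := M)
          (fun c => hM _ c.2)
        rw [Real.norm_eq_abs]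
        simp only [A]
        rw [← sub_div, abs_div, abs_of_pos (hF0 i), div_le_iff₀ (hF0 i)]
        exact h4
      refine squeeze_zero_norm' h2 ?_
      have := (tendsto_one_div_add_atTop_nhds_zero_nat (𝕜 := ℝ)).const_mul (2 * M)
      rwa [mul_zero] at this
    have h2 := (hlim f ⟨M, hM⟩).add h1
    rw [add_zero] at h2
    refine h2.congr fun i => ?_
    ring

theorem dimAmen_of_dblCen {G : Type*} [Group G] {x : G} (hx : DblCen x) : DimAmen x := by
  obtain ⟨y, N, K, C, d, hy, hN, hK, hd, hw⟩ := hx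
  have hyc : ∀ h : Cen x, y * h = h * y := fun h => by
    apply Subtype.ext
    rw [Subgroup.coe_mul, Subgroup.coe_mul, hy]
    exact (Dm.mem_cen.1 h.2).eq.symm
  obtain ⟨n, C', d', hD⟩ := dimData_of_dbl hyc hN hK hd
  exact ⟨coAmenable_of_dbl hN hK, y, N, n, C', d', hy, hD, hw⟩

end Vale.Agent.P184.H115
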