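import Vale.Agent.P184.H38.Wick
import Vale.Agent.P184.R3.UDefs

/-!
# The field of the Gaussian bound: the kernel and its mixed differences
-/

namespace Vale.Agent.P184.H115

open Vale.Agent.P184.H38 Vale.Agent.P184.Un

/-- Hadamard's bound for lists. -/
theorem wk_bound_list {V : Type*} (S : V → V → ℝ) (P : List (V × ℝ)) {k : ℕ}
    (hk : P.length = 2 * k) (hg : ∀ a ∈ P, 0 ≤ a.2) {M : ℝ} (hM : 0 ≤ M)
    (h : ∀ a ∈ P, ∀ b ∈ P, |S a.1 b.1| ≤ M * a.2 * b.2) :
    |wk S (P.map Prod.fst)| ≤ (P.map Prod.snd).prod * (M * √(2 * k)) ^ k := by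
  have h0 : P = List.ofFn fun i : Fin (2 * k) => P.get (i.cast hk.symm) := by
    refine List.ext_get (by simp [hk]) fun n h1 h2 => ?_
    simp
  have h1 : P.map Prod.fst = List.ofFn fun i : Fin (2 * k) => (P.get (i.cast hk.symm)).1 := by
    conv_lhs => rw [h0]
    rw [List.map_ofFn]
    rfl
  have h2 : (P.map Prod.snd).prod = ∏ i : Fin (2 * k), (P.get (i.cast hk.symm)).2 := by
    conv_lhs => rw [h0]
    rw [List.map_ofFn, List.prod_ofFn]
    rfl
  rw [h1, h2]
  exact wk_bound S _ _ (fun i => hg _ (List.get_mem _ _)) M hM fun i j _ =>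
    h _ (List.get_mem _ _) _ (List.get_mem _ _)

/-- The Wick functional is bounded on the lists of a given length. -/
theorem wk_bd {V : Type*} (S : V → V → ℝ) {C : ℝ} (hC : 0 ≤ C) (h : ∀ a b, |S a b| ≤ C) (n : ℕ) :
    ∀ L : List V, L.length = n → |wk S L| ≤ (C + 1) ^ n * (n.factorial : ℝ) := by
  induction n using Nat.strong_induction_on with
  | _ n ih =>
    intro L hL
    cases L with
    | nil =>
      rw [List.length_nil] at hL
      subst hL
      simp [wk_nil]
    | cons a L =>
      rw [List.length_cons] at hL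
      subst hL
      have hC1 : (1 : ℝ) ≤ C + 1 := by linarith
      rw [wk_cons]
      have hb : ∀ k : Fin L.length, |(-1 : ℝ) ^ (k : ℕ) * S a (L.get k) * wk S (L.eraseIdx k)| ≤
          (C + 1) ^ (L.length + 1) * (L.length.factorial : ℝ) := by
        intro k
        have hk := k.2
        rw [abs_mul, abs_mul, abs_pow, abs_neg, abs_one, one_pow, one_mul]
        have h1 := ih (L.length - 1) (by omega) (L.eraseIdx k) (length_erase_lt k)
        have h2 : (C + 1) ^ (L.length - 1) ≤ (C + 1) ^ L.length :=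
          pow_le_pow_right₀ hC1 (Nat.sub_le _ _)
        have h3 : ((L.length - 1).factorial : ℝ) ≤ (L.length.factorial : ℝ) := by
          exact_mod_cast Nat.factorial_le (Nat.sub_le _ _)
        calc |S a (L.get k)| * |wk S (L.eraseIdx k)|
            ≤ (C + 1) * ((C + 1) ^ L.length * (L.length.factorial : ℝ)) := by
              refine mul_le_mul ((h _ _).trans (by linarith)) (h1.trans ?_) (abs_nonneg _)
                (by linarith)
              exact mul_le_mul h2 h3 (by positivity) (by positivity)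
          _ = _ := by ring
      calc |∑ k : Fin L.length, (-1 : ℝ) ^ (k : ℕ) * S a (L.get k) * wk S (L.eraseIdx k)|
          ≤ ∑ k : Fin L.length, |(-1 : ℝ) ^ (k : ℕ) * S a (L.get k) * wk S (L.eraseIdx k)| :=
            Finset.abs_sum_le_sum_abs _ _
        _ ≤ ∑ _k : Fin L.length, (C + 1) ^ (L.length + 1) * (L.length.factorial : ℝ) :=
            Finset.sum_le_sum fun k _ => hb k
        _ = (C + 1) ^ (L.length + 1) * ((L.length : ℝ) * (L.length.factorial : ℝ)) := by
            simp only [Finset.sum_const, Finset.card_univ, Fintype.card_fin, nsmul_eq_mul]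
            ring
        _ ≤ (C + 1) ^ (L.length + 1) * (((L.length + 1).factorial : ℕ) : ℝ) := by
            refine mul_le_mul_of_nonneg_left ?_ (by positivity)
            rw [Nat.factorial_succ]
            push_cast
            nlinarith [Nat.cast_nonneg (α := ℝ) L.length.factorial]

section kernel

variable {G : Type*} [Group G]

theorem IsLen.nonneg {L : G → ℝ} (hL : IsLen L) (g : G) : 0 ≤ L g := by
  have h := hL.2.2 g g⁻¹
  rw [mul_inv_cancel, hL.1, hL.2.1] at h
  linarith

/-- The tent kernel. -/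
noncomputable def tent (L : G → ℝ) (D : ℝ) (p q : G) : ℝ := max 0 (1 - L (p⁻¹ * q) / D)

/-- The odd kernel of the tent kernel. -/
noncomputable def SA (L : G → ℝ) (D : ℝ) (x p q : G) : ℝ := tent L D p q - tent L D q (x * p)

variable {L : G → ℝ} (hL : IsLen L) {D : ℝ} (hD : 0 < D) {x : G}

theorem tent_nonneg (L : G → ℝ) (D : ℝ) (p q : G) : 0 ≤ tent L D p q := le_max_left _ _

include hL in
theorem tent_symm (p q : G) : tent L D p q = tent L D q p := by
  unfold tent
  rw [← hL.2.1 (p⁻¹ * q), mul_inv_rev, inv_inv]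

theorem tent_smul (L : G → ℝ) (D : ℝ) (c p q : G) : tent L D (c * p) (c * q) = tent L D p q := by
  unfold tent
  rw [mul_inv_rev, mul_assoc, inv_mul_cancel_left]

include hL hD in
theorem tent_le_one (p q : G) : tent L D p q ≤ 1 := by
  unfold tent
  have : 0 ≤ L (p⁻¹ * q) / D := div_nonneg (IsLen.nonneg hL _) hD.le
  exact max_le zero_le_one (by linarith)

include hL hD in
theorem tent_lip (p q q' : G) : |tent L D p q - tent L D p q'| ≤ L (q⁻¹ * q') / D := by
  unfold tent
  rw [max_comm 0, max_comm 0]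
  refine (abs_max_sub_max_le_abs _ _ _).trans ?_
  have h1 : L (p⁻¹ * q') ≤ L (p⁻¹ * q) + L (q⁻¹ * q') := by
    have := hL.2.2 (p⁻¹ * q) (q⁻¹ * q')
    rwa [mul_assoc, mul_inv_cancel_left] at this
  have h2 : L (p⁻¹ * q) ≤ L (p⁻¹ * q') + L (q⁻¹ * q') := by
    have := hL.2.2 (p⁻¹ * q') (q'⁻¹ * q)
    rw [mul_assoc, mul_inv_cancel_left] at this
    have h3 : L (q'⁻¹ * q) = L (q⁻¹ * q') := by
      rw [← hL.2.1 (q'⁻¹ * q), mul_inv_rev, inv_inv]
    rwa [h3] at this
  rw [show 1 - L (p⁻¹ * q) / D - (1 - L (p⁻¹ * q') / D) = (L (p⁻¹ * q') - L (p⁻¹ * q)) / D by ring,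
    abs_div, abs_of_pos hD]
  refine div_le_div_of_nonneg_right ?_ hD.le
  rw [abs_le]
  constructor <;> linarith

include hL hD in
theorem tent_lip' (p p' q : G) : |tent L D p q - tent L D p' q| ≤ L (p⁻¹ * p') / D := by
  rw [tent_symm hL p q, tent_symm hL p' q]
  exact tent_lip hL hD q p p'

/-- Mixed differences of a function of two variables. -/
def mix {α : Type*} (f : α → α → ℝ) (p p' q q' : α) : ℝ := f p q - f p q' - f p' q + f p' q'

theorem sqrt_min {a b : ℝ} (ha : 0 ≤ a) (hb : 0 ≤ b) {z c : ℝ} (hc : 0 ≤ c) (h1 : z ≤ c * a)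
    (h2 : z ≤ c * b) : z ≤ c * √a * √b := by
  rcases le_total a b with h | h
  · refine h1.trans ?_
    rw [mul_assoc]
    refine mul_le_mul_of_nonneg_left ?_ hc
    calc a = √a * √a := (Real.mul_self_sqrt ha).symm
      _ ≤ √a * √b := by gcongr
  · refine h2.trans ?_
    rw [mul_assoc]
    refine mul_le_mul_of_nonneg_left ?_ hc
    calc b = √b * √b := (Real.mul_self_sqrt hb).symm
      _ ≤ √a * √b := by gcongr

include hL hD in
theorem SA_mix (p p' q q' : G) :
    |mix (SA L D x) p p' q q'| ≤ 4 / D * √(L (p⁻¹ * p')) * √(L (q⁻¹ * q')) := by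
  have e : mix (SA L D x) p p' q q' = (tent L D p q - tent L D p' q) -
      (tent L D p q' - tent L D p' q') - (tent L D q (x * p) - tent L D q (x * p')) +
        (tent L D q' (x * p) - tent L D q' (x * p')) := by
    unfold mix SA
    ring
  have e' : mix (SA L D x) p p' q q' = (tent L D p q - tent L D p q') -
      (tent L D p' q - tent L D p' q') - (tent L D q (x * p) - tent L D q' (x * p)) +
        (tent L D q (x * p') - tent L D q' (x * p')) := by
    unfold mix SA
    ring
  have i1 : (x * p)⁻¹ * (x * p') = p⁻¹ * p' := by group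
  have a1 := abs_le.1 (tent_lip' hL hD p p' q)
  have a2 := abs_le.1 (tent_lip' hL hD p p' q')
  have a3 := abs_le.1 (tent_lip hL hD q (x * p) (x * p'))
  have a4 := abs_le.1 (tent_lip hL hD q' (x * p) (x * p'))
  have b1 := abs_le.1 (tent_lip hL hD p q q')
  have b2 := abs_le.1 (tent_lip hL hD p' q q')
  have b3 := abs_le.1 (tent_lip' hL hD q q' (x * p))
  have b4 := abs_le.1 (tent_lip' hL hD q q' (x * p'))
  rw [i1] at a3 a4
  have h1 : |mix (SA L D x) p p' q q'| ≤ 4 / D * L (p⁻¹ * p') := by
    rw [e, abs_le, show 4 / D * L (p⁻¹ * p') = 4 * (L (p⁻¹ * p') / D) by ring]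
    constructor <;> linarith
  have h2 : |mix (SA L D x) p p' q q'| ≤ 4 / D * L (q⁻¹ * q') := by
    rw [e', abs_le, show 4 / D * L (q⁻¹ * q') = 4 * (L (q⁻¹ * q') / D) by ring]
    constructor <;> linarith
  exact sqrt_min (IsLen.nonneg hL _) (IsLen.nonneg hL _) (by positivity) h1 h2

include hL hD in
theorem SA_bd (p q : G) : |SA L D x p q| ≤ 1 := by
  unfold SA
  have h1 := tent_le_one hL hD p q
  have h2 := tent_le_one hL hD q (x * p)
  have h3 := tent_nonneg L D p q
  have h4 := tent_nonneg L D q (x * p)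
  rw [abs_le]
  constructor <;> linarith

include hL hD in
theorem SA_self (hx : ∀ p : G, D ≤ L (p⁻¹ * x * p)) (p : G) : SA L D x p p = 1 := by
  unfold SA tent
  have h1 : (1 : ℝ) ≤ L (p⁻¹ * (x * p)) / D := by
    rw [one_le_div hD, ← mul_assoc]
    exact hx p
  rw [inv_mul_cancel, hL.1, zero_div, sub_zero, max_eq_right zero_le_one,
    max_eq_left (by linarith), sub_zero]

theorem SA_x (p q : G) : SA L D x q (x * p) = -SA L D x p q := by
  unfold SA
  rw [tent_smul L D x p q]
  ring

theorem SA_smul {c : G} (hc : c * x = x * c) (p q : G) :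
    SA L D x (c * p) (c * q) = SA L D x p q := by
  unfold SA
  rw [tent_smul, ← mul_assoc x c p, ← hc, mul_assoc c x p, tent_smul]

end kernel

section data

set_option linter.unusedSectionVars false

variable {G : Type*} [Group G]

/-- The Wick functional of a kernel, extended to the free module. -/
noncomputable def PfK (S : G → G → ℝ) (L : List (G →₀ ℝ)) : ℝ := wk (fun a b => frS S a b) L

theorem PfK_map (S : G → G → ℝ) (L : List G) :
    PfK S (L.map fun p => Finsupp.single p 1) = wk S L := (wk_free S L).symm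

theorem frS_sub_sub (S : G → G → ℝ) (p p' q q' : G) :
    frS S (Finsupp.single p 1 - Finsupp.single p' 1) (Finsupp.single q 1 - Finsupp.single q' 1) =
      mix S p p' q q' := by
  simp only [map_sub, LinearMap.sub_apply, frS_single]
  unfold mix
  ring

/-- The bound of the functional on the differences along `k` pairs of steps. -/
theorem PfK_bound (S : G → G → ℝ) {M : ℝ} (hM : 0 ≤ M) (len : G → ℝ) (h0 : ∀ g, 0 ≤ len g)
    (h : ∀ p p' q q' : G, |mix S p p' q q'| ≤ M * len (p⁻¹ * p') * len (q⁻¹ * q')) (k : ℕ)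
    (R : List (G × G × G)) (hR : R.length = k) :
    |PfK S (R.flatMap fun t => [Finsupp.single t.1 (1 : ℝ) - Finsupp.single t.2.1 1,
      Finsupp.single t.2.1 (1 : ℝ) - Finsupp.single t.2.2 1])| ≤
      (M * √(2 * k)) ^ k * (R.map fun t => len (t.1⁻¹ * t.2.1) * len (t.2.1⁻¹ * t.2.2)).prod := by
  set P : List ((G →₀ ℝ) × ℝ) := R.flatMap fun t =>
    [(Finsupp.single t.1 (1 : ℝ) - Finsupp.single t.2.1 1, len (t.1⁻¹ * t.2.1)),
      (Finsupp.single t.2.1 (1 : ℝ) - Finsupp.single t.2.2 1, len (t.2.1⁻¹ * t.2.2))] with hP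
  have e1 : P.map Prod.fst = R.flatMap fun t => [Finsupp.single t.1 (1 : ℝ) -
      Finsupp.single t.2.1 1, Finsupp.single t.2.1 (1 : ℝ) - Finsupp.single t.2.2 1] := by
    rw [hP, List.map_flatMap]
    rfl
  have e2 : (P.map Prod.snd).prod =
      (R.map fun t => len (t.1⁻¹ * t.2.1) * len (t.2.1⁻¹ * t.2.2)).prod := by
    rw [hP, List.map_flatMap]
    clear hP e1
    clear_value P
    induction R generalizing k with
    | nil => simp
    | cons t R ih =>
      rw [List.flatMap_cons, List.prod_append, List.map_cons, List.prod_cons,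
        ih (k - 1) (by rw [List.length_cons] at hR; omega)]
      simp
  have e3 : P.length = 2 * k := by
    rw [hP, List.length_flatMap, ← hR]
    simp [mul_comm]
  have key : ∀ a ∈ P, ∃ p p' : G, a = (Finsupp.single p (1 : ℝ) - Finsupp.single p' 1,
      len (p⁻¹ * p')) := by
    intro a ha
    rw [hP, List.mem_flatMap] at ha
    obtain ⟨t, -, ht⟩ := ha
    simp only [List.mem_cons, List.not_mem_nil, or_false] at ht
    rcases ht with rfl | rfl
    · exact ⟨_, _, rfl⟩
    · exact ⟨_, _, rfl⟩
  have := wk_bound_list (fun a b => frS S a b) P e3 (fun a ha => by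
    obtain ⟨p, p', rfl⟩ := key a ha
    exact h0 _) hM (fun a ha b hb => by
    obtain ⟨p, p', rfl⟩ := key a ha
    obtain ⟨q, q', rfl⟩ := key b hb
    dsimp only
    rw [frS_sub_sub]
    exact h p p' q q')
  rw [e1, e2] at this
  rw [mul_comm]
  exact this

end data

end Vale.Agent.P184.H115
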