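import Vale.Agent.P184.H38.PfD
import Vale.Agent.P184.H505.A3
import Vale.Agent.P184.H115.EstA0

/-!
# The field of the Gaussian bound
-/

namespace Vale.Agent.P184.H115

open Vale.Agent.P184.H38 Vale.Agent.P184.H505 Vale.Agent.P184.Un

/-- The data of a kernel. -/
noncomputable def ofKer {G : Type*} [Group G] {x : G} (S : G → G → ℝ) (h1 : ∀ p, S p p = 1)
    (h2 : ∀ p q, S q (x * p) = -S p q)
    (h3 : ∀ h, h * x = x * h → ∀ p q, S (h * p) (h * q) = S p q) (C : ℝ)
    (hC : ∀ p q, |S p q| ≤ C) : PfData G (G →₀ ℝ) x where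
  v p := Finsupp.single p 1
  Pf := wk fun a b => frS S a b
  nil := wk_nil _
  sub A u w B := wk_sub (frS S) u w A B
  sq A p B := pfd_sq _ (fun p : G => Finsupp.single p (1 : ℝ))
    (fun p => by rw [frS_single]; exact h1 p) A p B
  cyc p L hL := pfd_cyc _ (fun p : G => Finsupp.single p (1 : ℝ)) x
    (fun p q => by rw [frS_single, frS_single]; exact h2 p q) p L hL
  inv h hh L := pfd_inv _ (fun p : G => Finsupp.single p (1 : ℝ)) h
    (fun p q => by rw [frS_single, frS_single]; exact h3 h hh p q) L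
  bd n := pfd_bd _ (fun p : G => Finsupp.single p (1 : ℝ)) C
    (fun p q => by rw [frS_single]; exact hC p q) n

theorem estA {G : Type*} [Group G] {L : G → ℝ} (hL : IsLen L) {x : G} {D : ℝ} (hD : 0 < D)
    (hx : ∀ p : G, D ≤ L (p⁻¹ * x * p)) :
    ∃ P : PfData G (G →₀ ℝ) x, ∀ (k : ℕ) (R : List (G × G × G)), R.length = k →
      |P.Pf (R.flatMap fun t => [P.v t.1 - P.v t.2.1, P.v t.2.1 - P.v t.2.2])| ≤
        (4 * √(2 * k) / D) ^ k *
          (R.map fun t => √(L (t.1⁻¹ * t.2.1)) * √(L (t.2.1⁻¹ * t.2.2))).prod := by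
  refine ⟨ofKer (SA L D x) (SA_self hL hD hx) (SA_x) (fun h hh => SA_smul hh) 1
    (SA_bd hL hD), fun k R hR => ?_⟩
  have := flat_wk (fun a b => frS (SA L D x) a b) (fun p : G => Finsupp.single p (1 : ℝ))
    (fun p q => √(L (p⁻¹ * q))) (fun _ _ => Real.sqrt_nonneg _) (4 / D) (by positivity)
    (fun p p' q q' => by rw [frS_sub_sub]; exact SA_mix hL hD p p' q q') k R hR
  rw [show 4 / D * √(2 * (k : ℝ)) = 4 * √(2 * k) / D by ring] at this
  exact this

end Vale.Agent.P184.H115
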