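import Vale.Agent.P184.H115.FQ2

/-!
# Vanishing of the traces from finite quotients
-/

namespace Vale.Agent.P184.H115

open Vale.Agent.P184.Un Vale.Agent.P184.H250 Real

universe u

/-- The choice of the radius. -/
theorem choose_r {b Z γ : ℝ} (hb : 2 ≤ b) (hZ : 1 ≤ Z) (hγ : 0 < γ) :
    ∃ K : ℝ, 0 ≤ K ∧ ∀ N c : ℝ, 1 ≤ N → 1 ≤ c → K * (1 + log c) ≤ log N ^ 2 →
      ∃ r : ℕ, b ^ r ≤ N / 2 ∧ log (c * Z) < γ * (r : ℝ) ^ 2 / 2 := by
  have hlb : 0 < log b := log_pos (by linarith)
  have hlZ : 0 ≤ log Z := log_nonneg hZ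
  refine ⟨4 * (log 2 + log b) ^ 2 + 8 * log b ^ 2 * (1 + log Z) / γ, by positivity,
    fun N c hN hc hK => ?_⟩
  have hlc : 0 ≤ log c := log_nonneg hc
  set u : ℝ := log N with hu
  have hu0 : 0 ≤ u := log_nonneg hN
  have h20 : 0 < log 2 := log_pos (by norm_num)
  have hA : 0 ≤ 8 * log b ^ 2 * (1 + log Z) / γ := by positivity
  have hB : 0 ≤ 4 * (log 2 + log b) ^ 2 := by positivity
  -- `u ≥ 2 (log 2 + log b)`
  have h1 : 2 * (log 2 + log b) ≤ u := by
    have h2 : (2 * (log 2 + log b)) ^ 2 ≤ u ^ 2 := by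
      calc (2 * (log 2 + log b)) ^ 2 = 4 * (log 2 + log b) ^ 2 := by ring
        _ ≤ (4 * (log 2 + log b) ^ 2 + 8 * log b ^ 2 * (1 + log Z) / γ) * (1 + log c) := by
          nlinarith [mul_nonneg hA hlc, mul_nonneg hB hlc]
        _ ≤ u ^ 2 := hK
    exact (pow_le_pow_iff_left₀ (by positivity) hu0 two_ne_zero).1 h2
  have h3 : 0 ≤ (u - log 2) / log b := div_nonneg (by linarith) hlb.le
  refine ⟨⌊(u - log 2) / log b⌋₊, ?_, ?_⟩
  · have h4 : (⌊(u - log 2) / log b⌋₊ : ℝ) ≤ (u - log 2) / log b := Nat.floor_le h3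
    have h5 : (⌊(u - log 2) / log b⌋₊ : ℝ) * log b ≤ u - log 2 := by
      rwa [le_div_iff₀ hlb] at h4
    have h6 : b ^ ⌊(u - log 2) / log b⌋₊ = exp ((⌊(u - log 2) / log b⌋₊ : ℝ) * log b) := by
      rw [mul_comm, exp_mul, exp_log (by linarith), rpow_natCast]
    rw [h6]
    calc exp ((⌊(u - log 2) / log b⌋₊ : ℝ) * log b) ≤ exp (u - log 2) := exp_le_exp.2 h5
      _ = N / 2 := by rw [exp_sub, hu, exp_log (by linarith), exp_log (by norm_num)]
  · have h7 : (u - log 2) / log b < ⌊(u - log 2) / log b⌋₊ + 1 := Nat.lt_floor_add_one _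
    have h8 : u / (2 * log b) ≤ ⌊(u - log 2) / log b⌋₊ := by
      have h9 : u / (2 * log b) + 1 ≤ (u - log 2) / log b := by
        rw [div_add_one (by positivity), div_le_div_iff₀ (by positivity) hlb]
        nlinarith
      linarith
    have h10 : 0 ≤ u / (2 * log b) := by positivity
    have h11 : (u / (2 * log b)) ^ 2 ≤ (⌊(u - log 2) / log b⌋₊ : ℝ) ^ 2 := by gcongr
    have h12 : log Z + log c < γ * (u / (2 * log b)) ^ 2 / 2 := by
      have h13 : γ * (u / (2 * log b)) ^ 2 / 2 = γ * u ^ 2 / (8 * log b ^ 2) := by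
        field_simp
        ring
      rw [h13, lt_div_iff₀ (by positivity)]
      have h14 : (8 * log b ^ 2 * (1 + log Z) / γ) * (1 + log c) ≤ u ^ 2 := by
        refine le_trans ?_ hK
        nlinarith [mul_nonneg hB (by linarith : (0 : ℝ) ≤ 1 + log c)]
      have h15 : 8 * log b ^ 2 * (1 + log Z) * (1 + log c) ≤ γ * u ^ 2 := by
        have h16 : γ * ((8 * log b ^ 2 * (1 + log Z) / γ) * (1 + log c)) =
            8 * log b ^ 2 * (1 + log Z) * (1 + log c) := by
          field_simp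
        rw [← h16]
        exact mul_le_mul_of_nonneg_left h14 hγ.le
      have h17 : log Z + log c < (1 + log Z) * (1 + log c) := by
        nlinarith [mul_nonneg hlZ hlc]
      have h18 : 0 < log b ^ 2 := by positivity
      nlinarith
    rw [log_mul (by linarith) (by linarith)]
    have h19 : γ * (u / (2 * log b)) ^ 2 / 2 ≤ γ * (⌊(u - log 2) / log b⌋₊ : ℝ) ^ 2 / 2 := by
      gcongr
    linarith

/-- The words of bounded length. -/
theorem card_words {Q : Type*} [Group Q] [Fintype Q] [DecidableEq Q] (S : Finset Q)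
    (h1 : (1 : Q) ∈ S) (r : ℕ) (P : Q → Prop) [DecidablePred P] (hP : ∀ z, P z → ∃ m < r, IsWd S m z) :
    (Finset.univ.filter P).card ≤ S.card ^ r := by
  have h2 : (Finset.univ.filter P) ⊆
      Finset.univ.image fun t : Fin r → S => (List.ofFn fun i => (t i : Q)).prod := by
    intro z hz
    obtain ⟨m, hm, l, l1, l2, l3⟩ := hP z (Finset.mem_filter.1 hz).2
    rw [Finset.mem_image]
    set l' := l ++ List.replicate (r - m) (1 : Q) with hl'
    have e1 : l'.length = r := by
      rw [hl', List.length_append, l1, List.length_replicate]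
      omega
    have e2 : ∀ y ∈ l', y ∈ S := by
      intro y hy
      rcases List.mem_append.1 hy with hy | hy
      · exact l2 y hy
      · rw [List.eq_of_mem_replicate hy]
        exact h1
    have e3 : l'.prod = z := by
      rw [hl', List.prod_append, l3, List.prod_replicate, one_pow, mul_one]
    refine ⟨fun i => ⟨l'.get (i.cast e1.symm), e2 _ (List.get_mem _ _)⟩, Finset.mem_univ _, ?_⟩
    rw [← e3]
    congr 1
    exact (List.ext_get (by simp [e1]) fun n h3 h4 => by simp).symm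
  refine (Finset.card_le_card h2).trans (Finset.card_image_le.trans ?_)
  rw [Finset.card_univ, Fintype.card_fun, Fintype.card_coe, Fintype.card_fin]

/-- Uniform bounds for the push-forwards to finite groups. -/
theorem pw_bounds {G : Type u} [Group G] {q : ℕ} {f : Mat G q} (hf : IsIdem f) {S : Finset G}
    (hS : ∀ s ∈ S, s⁻¹ ∈ S) (h0 : ∀ i j g, (¬ ∃ n, IsWd S n g) → f i j g = 0)
    (h1 : ∀ i j, Summable fun g => ‖f i j g‖ * (wl S g : ℝ)) :
    ∃ Z γ : ℝ, 1 ≤ Z ∧ 0 < γ ∧ ∀ (Q : Type) [Group Q] [Fintype Q] [DecidableEq Q] (ρ₀ : G →* Q)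
      (C : ConjClasses Q), ‖tau C (pw ρ₀ f)‖ ≤ Z ∧ ∀ r : ℕ,
        (∀ m < r, ∀ z, IsWd (S.image ρ₀) m z → z ∉ C.carrier) →
          ‖tau C (pw ρ₀ f)‖ ≤ Z * exp (-(γ * (r : ℝ) ^ 2)) := by
  classical
  have hT : Summable fun g => ‖∑ i, f i i g‖ :=
    Summable.of_nonneg_of_le (fun _ => norm_nonneg _) (fun g => norm_sum_le _ _)
      (summable_sum fun i _ => hf.1 i i)
  set m : ℝ := ∑ i, ∑ j, ∑' g, ‖f i j g‖ * (wl S g : ℝ) with hm
  have hm0 : 0 ≤ m := Finset.sum_nonneg fun _ _ => Finset.sum_nonneg fun _ _ =>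
    tsum_nonneg fun _ => by positivity
  set A : ℝ := 4 * √2 * (N0 f * m ^ 2) + 1 with hA
  have hN0 := N0_nonneg f
  have hA0 : 0 < A := by positivity
  set T1 : ℝ := ∑' g, ‖∑ i, f i i g‖ with hT1
  have hT10 : 0 ≤ T1 := tsum_nonneg fun _ => norm_nonneg _
  refine ⟨1 + T1 + N0 f * exp 1, 1 / (exp 1 * A) ^ 2, by
    have := exp_pos 1
    nlinarith [mul_nonneg hN0 this.le], by positivity, ?_⟩
  intro Q _ _ _ ρ₀ C
  have b1 : ‖tau C (pw ρ₀ f)‖ ≤ 1 + T1 + N0 f * exp 1 := by
    have h2 : ‖tau C (pw ρ₀ f)‖ ≤ T1 := by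
      rw [pw_tau ρ₀ hf.1 C]
      have h3 := norm_tsum_le_tsum_norm (ind_summable hT fun g => ConjClasses.mk (ρ₀ g) = C)
      refine h3.trans ((ind_summable hT fun g => ConjClasses.mk (ρ₀ g) = C).tsum_le_tsum
        (fun g => ?_) hT)
      split_ifs
      · exact le_rfl
      · rw [norm_zero]
        exact norm_nonneg _
    have := exp_pos 1
    nlinarith [mul_nonneg hN0 this.le]
  refine ⟨b1, fun r hr => ?_⟩
  rcases Nat.eq_zero_or_pos r with rfl | hrpos
  · simpa using b1
  have hr' : (0 : ℝ) < r := by exact_mod_cast hrpos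
  set S' : Finset Q := S.image ρ₀ with hS'
  have hS'i : ∀ s ∈ S', s⁻¹ ∈ S' := by
    intro s hs
    obtain ⟨t, ht, rfl⟩ := Finset.mem_image.1 hs
    rw [← map_inv]
    exact Finset.mem_image_of_mem _ (hS t ht)
  have hwd : ∀ n g, IsWd S n g → IsWd S' n (ρ₀ g) := by
    rintro n g ⟨l, l1, l2, l3⟩
    refine ⟨l.map ρ₀, by rw [List.length_map, l1], fun y hy => ?_, by
      rw [← l3, map_list_prod]⟩
    obtain ⟨t, ht, rfl⟩ := List.mem_map.1 hy
    exact Finset.mem_image_of_mem _ (l2 t ht)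
  have hle : ∀ i j g, ‖f i j g‖ * √(Ln S' r (ρ₀ g)) ≤ ‖f i j g‖ * (wl S g : ℝ) := by
    intro i j g
    by_cases hg : ∃ n, IsWd S n g
    · refine mul_le_mul_of_nonneg_left ?_ (norm_nonneg _)
      have h9 : Ln S' r (ρ₀ g) ≤ wl S g := by
        have h10 := hwd _ _ (wl_spec hg)
        unfold Ln
        rw [if_pos ⟨_, h10⟩]
        refine (min_le_left _ _).trans ?_
        exact_mod_cast wl_le h10
      refine (Real.sqrt_le_sqrt h9).trans ?_
      rw [Real.sqrt_le_left (Nat.cast_nonneg _)]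
      rcases Nat.eq_zero_or_pos (wl S g) with h10 | h10
      · rw [h10]
        simp
      · have : (1 : ℝ) ≤ wl S g := by exact_mod_cast h10
        nlinarith
    · rw [h0 i j g hg, norm_zero, zero_mul, zero_mul]
  have hn0 : N0 (pw ρ₀ f) ≤ N0 f := by
    refine Finset.sum_le_sum fun i _ => Finset.sum_le_sum fun j _ => ?_
    have := pw_norm ρ₀ (e := f) i j (fun _ => 1) (fun _ => zero_le_one) (fun g => ‖f i j g‖)
      (fun g => by rw [mul_one]) (hf.1 i j) (hf.1 i j)
    simpa using this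
  have hn1 : N1 (pw ρ₀ f) (Ln S' r) ≤ m := by
    refine Finset.sum_le_sum fun i _ => Finset.sum_le_sum fun j _ => ?_
    exact pw_norm ρ₀ (e := f) i j (fun z => √(Ln S' r z)) (fun _ => Real.sqrt_nonneg _)
      (fun g => ‖f i j g‖ * (wl S g : ℝ)) (fun g => hle i j g) (hf.1 i j) (h1 i j)
  have hn0' := N0_nonneg (pw ρ₀ f)
  have hn1' := N1_nonneg (pw ρ₀ f) (Ln S' r)
  have key := gaussA' (isLen_Ln hS'i r) (pw ρ₀ f) (pw_idem ρ₀ hf)
    (fun i j => (hasSum_fintype _).summable) C hr' (fun g hg => by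
      unfold Ln
      split_ifs with h9
      · refine le_min ?_ le_rfl
        by_contra h10
        push Not at h10
        have h11 : wl S' g < r := by exact_mod_cast h10
        exact hr _ h11 g (wl_spec h9) hg
      · exact le_rfl) hA0 (by
      have h13 : 4 * √2 * (N0 (pw ρ₀ f) * N1 (pw ρ₀ f) (Ln S' r) ^ 2) ≤
          4 * √2 * (N0 f * m ^ 2) := by gcongr
      linarith)
  refine key.trans ?_
  have h14 : N0 (pw ρ₀ f) * exp 1 ≤ 1 + T1 + N0 f * exp 1 := by
    have : N0 (pw ρ₀ f) * exp 1 ≤ N0 f * exp 1 := mul_le_mul_of_nonneg_right hn0 (exp_pos 1).le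
    linarith
  refine mul_le_mul h14 (le_of_eq ?_) (exp_pos _).le (by nlinarith [mul_nonneg hN0 (exp_pos 1).le])
  congr 2
  rw [div_pow]
  ring

/-- `x` is separated from finite sets of other elements by finite quotients with many classes of
generators of the image of `⟨x⟩`, compared to the centralizer. -/
def FinQ {G : Type u} [Group G] (x : G) : Prop :=
  ∀ (F : Finset G) (K : ℝ), (∀ f ∈ F, ¬ IsConj x f) →
    ∃ (Q : Type) (_ : Group Q) (_ : Finite Q) (ρ₀ : G →* Q), (∀ f ∈ F, ¬ IsConj (ρ₀ x) (ρ₀ f)) ∧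
      K * (1 + log (Nat.card (Subgroup.centralizer {ρ₀ x}))) ≤
        log ((orderOf (ρ₀ x)).totient / {a : ℕ | a < orderOf (ρ₀ x) ∧
          (orderOf (ρ₀ x)).Coprime a ∧ IsConj (ρ₀ x) (ρ₀ x ^ a)}.ncard) ^ 2

/-- The vanishing of the trace of the push-forward. -/
theorem tau_pw_zero {Q : Type} [Group Q] [Fintype Q] [DecidableEq Q] {q : ℕ} {P : Mat Q q}
    (hP : IsIdem P) (y : Q) {Z γ : ℝ} (hZ : 1 ≤ Z) (S : Finset Q) (h1 : (1 : Q) ∈ S) {b : ℝ}
    (hb : (S.card : ℝ) ≤ b) (r : ℕ) {w : ℕ} (hw0 : 0 < w)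
    (hw : ∀ z, ∀ [DecidableRel (IsConj (α := Q))], ((Finset.range (orderOf y)).filter fun a =>
      Nat.Coprime (orderOf y) a ∧ IsConj z (y ^ a)⁻¹).card ≤ w)
    (hr : b ^ r ≤ (orderOf y).totient / w / 2)
    (hr2 : log (Nat.card (Subgroup.centralizer {y}) * Z) < γ * (r : ℝ) ^ 2 / 2)
    (hγ : 0 ≤ γ)
    (hbd : ∀ C : ConjClasses Q, ‖tau C P‖ ≤ Z ∧
      ((∀ m < r, ∀ z, IsWd S m z → z ∉ C.carrier) → ‖tau C P‖ ≤ Z * exp (-(γ * (r : ℝ) ^ 2)))) :
    tau (ConjClasses.mk y) P = 0 := by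
  classical
  refine tau_zero_of_prod hP y ?_
  set A := (Finset.range (orderOf y)).filter (Nat.Coprime (orderOf y)) with hA
  set W : Finset Q := Finset.univ.filter fun z => ∃ m < r, IsWd S m z with hW
  set near := A.filter fun a => ∃ z ∈ W, IsConj z (y ^ a)⁻¹ with hnear
  set far := A.filter fun a => ¬ ∃ z ∈ W, IsConj z (y ^ a)⁻¹ with hfar
  set c : ℝ := (Nat.card (Subgroup.centralizer {y}) : ℝ) with hc
  have hc1 : 1 ≤ c := by
    have : 0 < Nat.card (Subgroup.centralizer {y}) := Nat.card_pos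
    rw [hc]
    exact_mod_cast this
  have hφ : A.card = (orderOf y).totient := (Nat.totient_eq_card_coprime _).symm
  have hφ0 : 0 < (orderOf y).totient := Nat.totient_pos.2 (orderOf_pos y)
  -- the number of near exponents
  have hWc : W.card ≤ S.card ^ r := card_words S h1 r _ fun z hz => hz
  have hnc : (near.card : ℝ) ≤ (orderOf y).totient / 2 := by
    have h2 : near ⊆ W.biUnion fun z => (Finset.range (orderOf y)).filter fun a =>
        Nat.Coprime (orderOf y) a ∧ IsConj z (y ^ a)⁻¹ := by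
      intro a ha
      rw [hnear, Finset.mem_filter, hA, Finset.mem_filter] at ha
      obtain ⟨⟨ha1, ha2⟩, z, hz, hza⟩ := ha
      exact Finset.mem_biUnion.2 ⟨z, hz, Finset.mem_filter.2 ⟨ha1, ha2, hza⟩⟩
    have h3 : near.card ≤ W.card * w := by
      refine (Finset.card_le_card h2).trans (Finset.card_biUnion_le.trans ?_)
      refine (Finset.sum_le_sum fun z _ => hw z).trans ?_
      rw [Finset.sum_const, smul_eq_mul]
    have h4 : (W.card : ℝ) ≤ b ^ r := by
      have h5 : (W.card : ℝ) ≤ (S.card : ℝ) ^ r := by exact_mod_cast hWc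
      refine h5.trans ?_
      gcongr
    have hw' : (0 : ℝ) < w := by exact_mod_cast hw0
    calc (near.card : ℝ) ≤ W.card * w := by exact_mod_cast h3
      _ ≤ b ^ r * w := by gcongr
      _ ≤ ((orderOf y).totient / w / 2) * w := by gcongr
      _ = (orderOf y).totient / 2 := by field_simp
  have hsplit : near.card + far.card = (orderOf y).totient := by
    rw [← hφ, hnear, hfar]
    exact Finset.card_filter_add_card_filter_not _
  have hfc : ((orderOf y).totient : ℝ) / 2 ≤ far.card := by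
    have h2 : (near.card : ℝ) + far.card = (orderOf y).totient := by exact_mod_cast hsplit
    linarith
  -- the product
  set ρ : ℝ := exp (-(γ * (r : ℝ) ^ 2)) with hρ
  have hρ0 : 0 < ρ := exp_pos _
  have hcZ : 1 ≤ c * Z := by nlinarith
  have hprod : ∏ a ∈ A, (c * ‖tau (ConjClasses.mk (y ^ a)⁻¹) P‖) ≤
      (c * Z) ^ (orderOf y).totient * ρ ^ far.card := by
    have h2 : ∏ a ∈ A, (c * ‖tau (ConjClasses.mk (y ^ a)⁻¹) P‖) =
        (∏ a ∈ near, (c * ‖tau (ConjClasses.mk (y ^ a)⁻¹) P‖)) *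
          ∏ a ∈ far, (c * ‖tau (ConjClasses.mk (y ^ a)⁻¹) P‖) :=
      (Finset.prod_filter_mul_prod_filter_not A _ _).symm
    rw [h2]
    have h3 : ∏ a ∈ near, (c * ‖tau (ConjClasses.mk (y ^ a)⁻¹) P‖) ≤ (c * Z) ^ near.card := by
      rw [← Finset.prod_const]
      refine Finset.prod_le_prod (fun _ _ => by positivity) fun a _ => ?_
      exact mul_le_mul_of_nonneg_left (hbd _).1 (by linarith)
    have h4 : ∏ a ∈ far, (c * ‖tau (ConjClasses.mk (y ^ a)⁻¹) P‖) ≤ (c * Z * ρ) ^ far.card := by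
      rw [← Finset.prod_const]
      refine Finset.prod_le_prod (fun _ _ => by positivity) fun a ha => ?_
      rw [mul_assoc]
      refine mul_le_mul_of_nonneg_left ((hbd _).2 fun m hm z hz hzC => ?_) (by linarith)
      rw [hfar, Finset.mem_filter] at ha
      refine ha.2 ⟨z, Finset.mem_filter.2 ⟨Finset.mem_univ _, m, hm, hz⟩, ?_⟩
      rw [ConjClasses.mem_carrier_iff_mk_eq, ConjClasses.mk_eq_mk_iff_isConj] at hzC
      exact hzC
    calc _ ≤ (c * Z) ^ near.card * (c * Z * ρ) ^ far.card :=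
          mul_le_mul h3 h4 (Finset.prod_nonneg fun _ _ => by positivity) (by positivity)
      _ = (c * Z) ^ (orderOf y).totient * ρ ^ far.card := by
          rw [mul_pow (c * Z) ρ, ← mul_assoc, ← pow_add, hsplit]
  refine lt_of_le_of_lt hprod ?_
  have h5 : (c * Z) ^ (orderOf y).totient = exp ((orderOf y).totient * log (c * Z)) := by
    rw [mul_comm ((orderOf y).totient : ℝ), exp_mul, exp_log (by linarith), rpow_natCast]
  have h6 : ρ ^ far.card = exp (-(far.card * (γ * (r : ℝ) ^ 2))) := by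
    rw [hρ, ← exp_nat_mul]
    ring_nf
  rw [h5, h6, ← exp_add, exp_lt_one_iff]
  have h7 : (0 : ℝ) < (orderOf y).totient := by exact_mod_cast hφ0
  have h8 : (0 : ℝ) ≤ γ * (r : ℝ) ^ 2 := by positivity
  have h9 : ((orderOf y).totient : ℝ) * log (c * Z) <
      (orderOf y).totient * (γ * (r : ℝ) ^ 2 / 2) := mul_lt_mul_of_pos_left hr2 h7
  have h10 : ((orderOf y).totient : ℝ) / 2 * (γ * (r : ℝ) ^ 2) ≤ far.card * (γ * (r : ℝ) ^ 2) :=
    mul_le_mul_of_nonneg_right hfc h8
  linarith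

/-- **Vanishing of the traces from finite quotients.** -/
theorem vanishesAt_of_finQ {G : Type u} [Group G] {x : G} (hx : FinQ x) : VanishesAt x := by
  classical
  intro q e he
  obtain ⟨S, f, -, h1S, h3, h4, h5, h6, h8⟩ := exists_decay_moment e he ∅
  rw [← h5]
  obtain ⟨Z, γ, hZ, hγ, hbd⟩ := pw_bounds h4 h3 h6 h8
  set b : ℝ := max 2 (S.card : ℝ) with hb
  obtain ⟨K, hK0, hK⟩ := choose_r (b := b) (le_max_left _ _) hZ hγ
  have hT : Summable fun g => ‖∑ i, f i i g‖ :=
    Summable.of_nonneg_of_le (fun _ => norm_nonneg _) (fun g => norm_sum_le _ _)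
      (summable_sum fun i _ => h4.1 i i)
  refine norm_le_zero_iff.1 (le_of_forall_pos_le_add fun ε hε => ?_)
  rw [zero_add]
  -- a finite set carrying most of the mass
  obtain ⟨F', hF'⟩ := (summable_iff_vanishing_norm.1 hT) ε hε
  have hF2 : ∑' g, (if g ∈ F' then 0 else ‖∑ i, f i i g‖) ≤ ε := by
    have hs : Summable fun g => if g ∈ F' then 0 else ‖∑ i, f i i g‖ :=
      Summable.of_nonneg_of_le (fun g => by split_ifs <;> positivity) (fun g => by
        split_ifs
        · positivity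
        · exact le_rfl) hT
    refine hs.tsum_le_of_sum_le fun t => ?_
    have h9 : ∑ g ∈ t, (if g ∈ F' then 0 else ‖∑ i, f i i g‖) =
        ∑ g ∈ t \ F', ‖∑ i, f i i g‖ := by
      rw [Finset.sum_ite, Finset.sum_const_zero, zero_add]
      refine Finset.sum_congr ?_ fun _ _ => rfl
      ext g
      simp [Finset.mem_sdiff]
    rw [h9]
    have h10 := hF' (t \ F') Finset.sdiff_disjoint
    rw [Real.norm_eq_abs] at h10
    exact (le_abs_self _).trans h10.le
  obtain ⟨Q, _, _, p₀, hp1, hp2⟩ := hx (F'.filter fun g => ¬ IsConj x g) K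
    fun g hg => (Finset.mem_filter.1 hg).2
  have := Fintype.ofFinite Q
  set y : Q := p₀ x with hy
  -- the multiplicity
  set w : ℕ := {a : ℕ | a < orderOf y ∧ (orderOf y).Coprime a ∧ IsConj y (y ^ a)}.ncard with hw
  have hwe : ∀ [DecidableRel (IsConj (α := Q))], w = ((Finset.range (orderOf y)).filter fun a =>
      Nat.Coprime (orderOf y) a ∧ IsConj y (y ^ a)).card := by
    intro _
    rw [hw, ← Set.ncard_coe_finset]
    congr 1
    ext a
    simp
  have hn : 0 < orderOf y := orderOf_pos y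
  have hw0 : 0 < w := by
    rw [hwe, Finset.card_pos]
    refine ⟨1 % orderOf y, Finset.mem_filter.2 ⟨Finset.mem_range.2 (Nat.mod_lt _ hn), ?_, ?_⟩⟩
    · have h9 := (Nat.mod_modEq 1 (orderOf y)).gcd_eq
      rw [Nat.Coprime, Nat.gcd_comm]
      rw [h9, Nat.gcd_one_left]
    · rw [pow_mod_orderOf, pow_one]
  have hwφ : w ≤ (orderOf y).totient := by
    rw [hwe, Nat.totient_eq_card_coprime]
    refine Finset.card_le_card fun a ha => ?_
    rw [Finset.mem_filter] at ha ⊢
    exact ⟨ha.1, ha.2.1⟩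
  have hw' : (0 : ℝ) < w := by exact_mod_cast hw0
  have hN1 : (1 : ℝ) ≤ (orderOf y).totient / w := by
    rw [le_div_iff₀ hw', one_mul]
    exact_mod_cast hwφ
  have hc1 : (1 : ℝ) ≤ Nat.card (Subgroup.centralizer {y}) := by
    have : 0 < Nat.card (Subgroup.centralizer {y}) := Nat.card_pos
    exact_mod_cast this
  obtain ⟨r, hr1, hr2⟩ := hK _ _ hN1 hc1 hp2
  have h1S' : (1 : Q) ∈ S.image p₀ := by
    rw [← map_one p₀]
    exact Finset.mem_image_of_mem _ h1S
  have hSc : ((S.image p₀).card : ℝ) ≤ b := by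
    refine le_trans ?_ (le_max_right _ _)
    exact_mod_cast Finset.card_image_le
  have hzero := tau_pw_zero (pw_idem p₀ h4) y hZ (S.image p₀) h1S' hSc r hw0
    (fun z _ => by rw [hwe]; exact card_near y z) hr1 hr2 hγ.le
    fun C => ⟨(hbd Q p₀ C).1, (hbd Q p₀ C).2 r⟩
  -- comparison
  rw [pw_tau p₀ h4.1] at hzero
  have e1 : tau (ConjClasses.mk x) f = ∑' g, if IsConj x g then ∑ i, f i i g else 0 := by
    unfold tau
    rw [tsum_subtype (ConjClasses.mk x).carrier fun g => ∑ i, f i i g]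
    refine tsum_congr fun g => ?_
    rw [Set.indicator_apply]
    by_cases hg : IsConj x g
    · rw [if_pos hg, if_pos]
      rw [ConjClasses.mem_carrier_iff_mk_eq, ConjClasses.mk_eq_mk_iff_isConj]
      exact hg.symm
    · rw [if_neg hg, if_neg]
      rw [ConjClasses.mem_carrier_iff_mk_eq, ConjClasses.mk_eq_mk_iff_isConj]
      exact fun h => hg h.symm
  have s1 : Summable fun g => if IsConj x g then ∑ i, f i i g else 0 :=
    (ind_summable hT fun g => IsConj x g).of_norm
  have s2 : Summable fun g => if ConjClasses.mk (p₀ g) = ConjClasses.mk y then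
      ∑ i, f i i g else 0 := (ind_summable hT fun g => ConjClasses.mk (p₀ g) = ConjClasses.mk y).of_norm
  have e2 : tau (ConjClasses.mk x) f = ∑' g, ((if IsConj x g then ∑ i, f i i g else 0) -
      if ConjClasses.mk (p₀ g) = ConjClasses.mk y then ∑ i, f i i g else 0) := by
    rw [s1.tsum_sub s2, hzero, sub_zero, e1]
  rw [e2]
  have hle : ∀ g, ‖(if IsConj x g then ∑ i, f i i g else 0) -
      if ConjClasses.mk (p₀ g) = ConjClasses.mk y then ∑ i, f i i g else 0‖ ≤
      if g ∈ F' then 0 else ‖∑ i, f i i g‖ := by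
    intro g
    by_cases hg : IsConj x g
    · have h9 : ConjClasses.mk (p₀ g) = ConjClasses.mk y := by
        rw [ConjClasses.mk_eq_mk_iff_isConj]
        exact (p₀.map_isConj hg).symm
      rw [if_pos hg, if_pos h9, sub_self, norm_zero]
      split_ifs <;> positivity
    · by_cases hF : g ∈ F'
      · have h9 : ¬ ConjClasses.mk (p₀ g) = ConjClasses.mk y := by
          rw [ConjClasses.mk_eq_mk_iff_isConj]
          exact fun h => hp1 g (Finset.mem_filter.2 ⟨hF, hg⟩) h.symm
        rw [if_neg hg, if_neg h9, sub_self, norm_zero, if_pos hF]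
      · rw [if_neg hg, zero_sub, norm_neg, if_neg hF]
        split_ifs
        · exact le_rfl
        · rw [norm_zero]
          positivity
  have s3 : Summable fun g => if g ∈ F' then 0 else ‖∑ i, f i i g‖ :=
    Summable.of_nonneg_of_le (fun g => by split_ifs <;> positivity) (fun g => by
      split_ifs
      · positivity
      · exact le_rfl) hT
  refine (tsum_of_norm_bounded s3.hasSum hle).trans hF2

end Vale.Agent.P184.H115
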