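import Vale.Agent.P184.H115.AsmA

/-!
# Push-forward to a finite quotient
-/

namespace Vale.Agent.P184.H115

open Vale.Agent.P184.Un Vale.Agent.P184.H250

section push

variable {G Q : Type*} [Group G] [Group Q] (π : G →* Q) {q : ℕ}

open Classical in
/-- The push-forward of a matrix over `ℓ¹(G)`. -/
noncomputable def pw (e : Mat G q) : Mat Q q := fun i j z => ∑' g, if π g = z then e i j g else 0

theorem ind_summable {G : Type*} {a : G → ℂ} (ha : Summable fun g => ‖a g‖) (P : G → Prop)
    [DecidablePred P] : Summable fun g => ‖if P g then a g else 0‖ := by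
  refine Summable.of_nonneg_of_le (fun _ => norm_nonneg _) (fun g => ?_) ha
  split_ifs
  · exact le_rfl
  · rw [norm_zero]
    exact norm_nonneg _

theorem conv_summable {a b : G → ℂ} (ha : Summable fun g => ‖a g‖) (hb : Summable fun g => ‖b g‖) :
    Summable fun p : G × G => ‖a p.1 * b (p.1⁻¹ * p.2)‖ := by
  have h1 : Summable fun p : G × G => ‖a p.1 * b p.2‖ := ha.mul_norm hb
  have h2 := (Equiv.prodShear (Equiv.refl G) fun g => Equiv.mulLeft g⁻¹).summable_iff.2 h1
  exact h2

/-- The convolution of the push-forwards. -/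
theorem pw_conv [Fintype Q] {a b : G → ℂ} (ha : Summable fun g => ‖a g‖)
    (hb : Summable fun g => ‖b g‖) (z : Q) [DecidableEq Q] :
    ∑' h : Q, (∑' g, if π g = h then a g else 0) * (∑' g, if π g = h⁻¹ * z then b g else 0) =
      ∑' v, if π v = z then ∑' g, a g * b (g⁻¹ * v) else 0 := by
  have h1 : ∀ h : Q, (∑' g, if π g = h then a g else 0) * (∑' g, if π g = h⁻¹ * z then b g else 0) =
      ∑' p : G × G, (if π p.1 = h then a p.1 else 0) * (if π p.2 = h⁻¹ * z then b p.2 else 0) :=
    fun h => tsum_mul_tsum_of_summable_norm (ind_summable ha _) (ind_summable hb _)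
  simp only [h1]
  rw [tsum_fintype, ← Summable.tsum_finsetSum fun h _ =>
    ((ind_summable ha fun g => π g = h).mul_norm (ind_summable hb fun g => π g = h⁻¹ * z)).of_norm]
  have h2 : ∀ p : G × G, ∑ h : Q, (if π p.1 = h then a p.1 else 0) *
      (if π p.2 = h⁻¹ * z then b p.2 else 0) = if π (p.1 * p.2) = z then a p.1 * b p.2 else 0 := by
    intro p
    rw [Finset.sum_eq_single (π p.1)]
    · rw [if_pos rfl, map_mul]
      by_cases h : π p.1 * π p.2 = z
      · rw [if_pos h, if_pos (eq_inv_mul_of_mul_eq h)]
      · rw [if_neg h, if_neg fun h' => h (by rw [h', mul_inv_cancel_left]), mul_zero]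
    · intro h _ hh
      rw [if_neg (Ne.symm hh), zero_mul]
    · intro h
      exact absurd (Finset.mem_univ _) h
  simp only [h2]
  -- change of variables
  have h3 := (Equiv.prodShear (Equiv.refl G) fun g => Equiv.mulLeft g⁻¹).tsum_eq
    fun p : G × G => if π (p.1 * p.2) = z then a p.1 * b p.2 else 0
  rw [← h3]
  have h4 : ∀ p : G × G, (if π (((Equiv.prodShear (Equiv.refl G) fun g => Equiv.mulLeft g⁻¹) p).1 *
      ((Equiv.prodShear (Equiv.refl G) fun g => Equiv.mulLeft g⁻¹) p).2) = z then
        a ((Equiv.prodShear (Equiv.refl G) fun g => Equiv.mulLeft g⁻¹) p).1 *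
        b ((Equiv.prodShear (Equiv.refl G) fun g => Equiv.mulLeft g⁻¹) p).2 else 0) =
      if π p.2 = z then a p.1 * b (p.1⁻¹ * p.2) else 0 := by
    intro p
    simp only [Equiv.prodShear_apply, Equiv.refl_apply, Equiv.coe_mulLeft, mul_inv_cancel_left]
  simp only [h4]
  have h5 := conv_summable ha hb
  have h6 : Summable fun p : G × G => if π p.2 = z then a p.1 * b (p.1⁻¹ * p.2) else 0 :=
    (ind_summable h5 fun p => π p.2 = z).of_norm
  rw [← (Equiv.prodComm G G).tsum_eq]
  have h7 := (Equiv.prodComm G G).summable_iff.2 h6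
  refine h7.tsum_prod.trans ?_
  refine tsum_congr fun v => ?_
  simp only [Function.comp_apply, Equiv.prodComm_apply, Prod.swap_prod_mk]
  by_cases hv : π v = z
  · simp only [hv, if_true]
  · simp only [hv, if_false]
    exact tsum_zero

theorem pw_idem [Fintype Q] {e : Mat G q} (he : IsIdem e) : IsIdem (pw π e) := by
  classical
  refine ⟨fun i j => (hasSum_fintype _).summable, ?_⟩
  funext i j z
  unfold mul pw
  have h1 : ∀ k : Fin q, ∑' h : Q, (∑' g, if π g = h then e i k g else 0) *
      (∑' g, if π g = h⁻¹ * z then e k j g else 0) =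
      ∑' v, if π v = z then ∑' g, e i k g * e k j (g⁻¹ * v) else 0 := fun k =>
    pw_conv π (he.1 i k) (he.1 k j) z
  have h2 : ∀ k : Fin q, Summable fun v => if π v = z then ∑' g, e i k g * e k j (g⁻¹ * v) else 0 := by
    intro k
    have h5 := conv_summable (he.1 i k) (he.1 k j)
    have h6 := (Equiv.prodComm G G).summable_iff.2 h5
    have h7 : Summable fun v => ‖∑' g, e i k g * e k j (g⁻¹ * v)‖ := by
      refine Summable.of_nonneg_of_le (fun _ => norm_nonneg _) (fun v => ?_) h6.prod
      exact norm_tsum_le_tsum_norm (h6.prod_factor v)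
    exact (ind_summable h7 _).of_norm
  convert (Summable.tsum_finsetSum fun k _ => h2 k).symm using 1
  · exact Finset.sum_congr rfl fun k _ => by
      convert h1 k using 1
  · refine tsum_congr fun v => ?_
    have h3 := congrFun (congrFun (congrFun he.2 i) j) v
    unfold mul at h3
    by_cases hv : π v = z
    · simp only [hv, if_true]
      exact h3.symm
    · simp only [hv, if_false, Finset.sum_const_zero]

/-- Weighted norms of the push-forward. -/
theorem pw_norm [Fintype Q] {e : Mat G q} (i j : Fin q) (w : Q → ℝ) (hw : ∀ z, 0 ≤ w z)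
    (u : G → ℝ) (hu : ∀ g, ‖e i j g‖ * w (π g) ≤ u g) (h0 : Summable fun g => ‖e i j g‖)
    (hus : Summable u) :
    ∑' z, ‖pw π e i j z‖ * w z ≤ ∑' g, u g := by
  classical
  have h1 : ∀ z, Summable fun g => if π g = z then ‖e i j g‖ * w z else 0 := by
    intro z
    refine Summable.of_nonneg_of_le (fun g => ?_) (fun g => ?_) hus
    · split_ifs
      · exact mul_nonneg (norm_nonneg _) (hw _)
      · exact le_rfl
    · split_ifs with h
      · rw [← h]
        exact hu g
      · exact (mul_nonneg (norm_nonneg _) (hw _)).trans (hu g)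
  have h2 : ∀ z, ‖pw π e i j z‖ * w z ≤ ∑' g, if π g = z then ‖e i j g‖ * w z else 0 := by
    intro z
    have h3 := norm_tsum_le_tsum_norm (ind_summable h0 fun g => π g = z)
    have h4 : (∑' g, ‖if π g = z then e i j g else 0‖) * w z =
        ∑' g, if π g = z then ‖e i j g‖ * w z else 0 := by
      rw [← tsum_mul_right]
      refine tsum_congr fun g => ?_
      split_ifs
      · rfl
      · rw [norm_zero, zero_mul]
    rw [← h4]
    refine mul_le_mul_of_nonneg_right ?_ (hw z)
    unfold pw
    convert h3 using 3
  rw [tsum_fintype]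
  refine (Finset.sum_le_sum fun z _ => h2 z).trans ?_
  rw [← Summable.tsum_finsetSum fun z _ => h1 z]
  refine Summable.tsum_le_tsum (fun g => ?_) (summable_sum fun z _ => h1 z) hus
  rw [Finset.sum_ite_eq]
  simp only [Finset.mem_univ, if_true]
  exact hu g

/-- The traces of the push-forward. -/
theorem pw_tau [Fintype Q] {e : Mat G q} (he : InL1 e) (C : ConjClasses Q)
    [DecidablePred fun g : G => ConjClasses.mk (π g) = C] :
    tau C (pw π e) = ∑' g, if ConjClasses.mk (π g) = C then ∑ i, e i i g else 0 := by
  classical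
  have hT : Summable fun g => ‖∑ i, e i i g‖ := by
    refine Summable.of_nonneg_of_le (fun _ => norm_nonneg _) (fun g => norm_sum_le _ _)
      (summable_sum fun i _ => he i i)
  unfold tau
  rw [tsum_fintype]
  have h1 : ∀ z : C.carrier, ∑ i, pw π e i i z =
      ∑' g, if π g = z then ∑ i, e i i g else 0 := by
    intro z
    unfold pw
    have h2 := Summable.tsum_finsetSum (s := Finset.univ)
      (f := fun (i : Fin q) g => if π g = z then e i i g else 0)
      fun i _ => (ind_summable (he i i) fun g => π g = z).of_norm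
    rw [← h2]
    refine tsum_congr fun g => ?_
    split_ifs
    · rfl
    · exact Finset.sum_const_zero
  simp only [h1]
  have h3 := Summable.tsum_finsetSum (s := Finset.univ)
    (f := fun (z : C.carrier) g => if π g = (z : Q) then ∑ i, e i i g else 0)
    fun z _ => (ind_summable hT fun g => π g = (z : Q)).of_norm
  rw [← h3]
  refine tsum_congr fun g => ?_
  by_cases hg : ConjClasses.mk (π g) = C
  · rw [if_pos hg, Finset.sum_eq_single (⟨π g, ConjClasses.mem_carrier_iff_mk_eq.2 hg⟩ : C.carrier)]
    · simp
    · intro z _ hz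
      rw [if_neg]
      intro h
      exact hz (Subtype.ext h.symm)
    · intro h
      exact absurd (Finset.mem_univ _) h
  · rw [if_neg hg]
    refine Finset.sum_eq_zero fun z _ => ?_
    rw [if_neg]
    intro h
    apply hg
    rw [h]
    exact ConjClasses.mem_carrier_iff_mk_eq.1 z.2

end push

end Vale.Agent.P184.H115
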