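import Vale.Agent.P184.H115.FQ1
import Vale.Agent.P184.H38.Gal

/-!
# Idempotents over finite groups: traces at the generators of a cyclic subgroup
-/

namespace Vale.Agent.P184.H115

open Vale.Agent.P184.Un

section fin

set_option linter.unusedSectionVars false

variable {Q : Type*} [Group Q] [Fintype Q] [DecidableEq Q]

/-- Counting the elements which conjugate `w` to `z`. -/
theorem card_conj (w z : Q) (h : IsConj w z) :
    (Finset.univ.filter fun p : Q => p⁻¹ * w * p = z).card =
      Nat.card (Subgroup.centralizer {w}) := by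
  classical
  obtain ⟨c, rfl⟩ := isConj_iff.1 h
  have e : {p : Q // p⁻¹ * w * p = c * w * c⁻¹} ≃ Subgroup.centralizer {w} :=
    { toFun := fun p => ⟨p.1 * c, by
        rw [Subgroup.mem_centralizer_singleton_iff]
        have h1 := p.2
        have h2 : w * p.1 = p.1 * (c * w * c⁻¹) := by
          calc w * p.1 = p.1 * (p.1⁻¹ * w * p.1) := by group
            _ = p.1 * (c * w * c⁻¹) := by rw [h1]
        calc p.1 * c * w = p.1 * (c * w * c⁻¹) * c := by group
          _ = w * p.1 * c := by rw [← h2]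
          _ = w * (p.1 * c) := by group⟩
      invFun := fun p => ⟨p.1 * c⁻¹, by
        have h1 := Subgroup.mem_centralizer_singleton_iff.1 p.2
        calc (p.1 * c⁻¹)⁻¹ * w * (p.1 * c⁻¹) = c * p.1⁻¹ * (w * p.1) * c⁻¹ := by group
          _ = c * p.1⁻¹ * (p.1 * w) * c⁻¹ := by rw [h1]
          _ = c * w * c⁻¹ := by group⟩
      left_inv := fun p => by
        ext
        simp
      right_inv := fun p => by
        ext
        simp }
  rw [← Nat.card_congr e, Nat.card_eq_fintype_card, Fintype.card_subtype]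

/-- Sums over a conjugacy class. -/
theorem class_sum (w : Q) (F : Q → ℂ) :
    ∑ p : Q, F (p⁻¹ * w * p) = (Nat.card (Subgroup.centralizer {w}) : ℂ) *
      ∑' z : (ConjClasses.mk w).carrier, F z := by
  classical
  have h1 : ∑ p : Q, F (p⁻¹ * w * p) =
      ∑ z : Q, ∑ p ∈ Finset.univ.filter (fun p : Q => p⁻¹ * w * p = z), F (p⁻¹ * w * p) :=
    (Finset.sum_fiberwise_of_maps_to (fun _ _ => Finset.mem_univ _) _).symm
  rw [h1]
  have h2 : ∀ z : Q, ∑ p ∈ Finset.univ.filter (fun p : Q => p⁻¹ * w * p = z), F (p⁻¹ * w * p) =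
      if IsConj w z then (Nat.card (Subgroup.centralizer {w}) : ℂ) * F z else 0 := by
    intro z
    have h3 : ∑ p ∈ Finset.univ.filter (fun p : Q => p⁻¹ * w * p = z), F (p⁻¹ * w * p) =
        ((Finset.univ.filter fun p : Q => p⁻¹ * w * p = z).card : ℂ) * F z := by
      rw [Finset.sum_congr rfl (g := fun _ => F z) fun p hp => by
        rw [(Finset.mem_filter.1 hp).2], Finset.sum_const, nsmul_eq_mul]
    rw [h3]
    split_ifs with h
    · rw [card_conj w z h]
    · have h4 : (Finset.univ.filter fun p : Q => p⁻¹ * w * p = z) = ∅ := by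
        refine Finset.filter_eq_empty_iff.2 fun p _ hp => h ?_
        rw [isConj_iff]
        exact ⟨p⁻¹, by rw [inv_inv]; exact hp⟩
      rw [h4]
      simp
  simp only [h2]
  rw [tsum_fintype, ← Finset.sum_filter, ← Finset.mul_sum]
  congr 1
  refine Finset.sum_bij' (fun z hz => (⟨z, by
      rw [ConjClasses.mem_carrier_iff_mk_eq, ConjClasses.mk_eq_mk_iff_isConj]
      exact (Finset.mem_filter.1 hz).2.symm⟩ : (ConjClasses.mk w).carrier))
    (fun z _ => z.1) (fun _ _ => Finset.mem_univ _) (fun z _ => ?_) (fun _ _ => rfl)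
    (fun _ _ => rfl) (fun _ _ => rfl)
  have := z.2
  rw [ConjClasses.mem_carrier_iff_mk_eq, ConjClasses.mk_eq_mk_iff_isConj] at this
  exact Finset.mem_filter.2 ⟨Finset.mem_univ _, this.symm⟩

variable {q : ℕ}

/-- The matrix of an idempotent acting on the functions on the group. -/
def EM (P : Mat Q q) : Matrix (Q × Fin q) (Q × Fin q) ℂ := fun a b => P a.2 b.2 (a.1⁻¹ * b.1)

theorem EM_idem {P : Mat Q q} (hP : IsIdem P) : EM P * EM P = EM P := by
  ext ⟨p, i⟩ ⟨p'', k⟩
  rw [Matrix.mul_apply, Fintype.sum_prod_type_right]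
  have h1 := congrFun (congrFun (congrFun hP.2 i) k) (p⁻¹ * p'')
  unfold mul at h1
  simp only [tsum_fintype] at h1
  unfold EM
  rw [← h1]
  refine Finset.sum_congr rfl fun j _ => ?_
  refine Fintype.sum_equiv (Equiv.mulLeft p⁻¹) _ _ fun p' => ?_
  simp only [Equiv.coe_mulLeft]
  congr 2
  group

/-- Translation by `y`. -/
def YL (q : ℕ) (y : Q) : (Q × Fin q → ℂ) →ₗ[ℂ] (Q × Fin q → ℂ) :=
  LinearMap.funLeft ℂ ℂ fun a => (y * a.1, a.2)

theorem YL_pow (y : Q) (a : ℕ) : YL q y ^ a = YL q (y ^ a) := by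
  induction a with
  | zero =>
    rw [pow_zero, pow_zero]
    ext v a
    simp [YL, LinearMap.funLeft_apply]
  | succ a ih =>
    rw [pow_succ, ih]
    refine LinearMap.ext fun v => funext fun b => ?_
    simp only [YL, Module.End.mul_apply, LinearMap.funLeft_apply]
    rw [pow_succ', mul_assoc]

theorem YL_mul (P : Mat Q q) (y : Q) : YL q y * Matrix.toLin' (EM P) =
    Matrix.toLin' (Matrix.of fun a b : Q × Fin q => P a.2 b.2 ((y * a.1)⁻¹ * b.1)) := by
  refine LinearMap.ext fun v => funext fun b => ?_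
  simp only [YL, Module.End.mul_apply, LinearMap.funLeft_apply, Matrix.toLin'_apply,
    Matrix.mulVec, dotProduct, EM, Matrix.of_apply]

theorem YL_comm (P : Mat Q q) (y : Q) :
    YL q y * Matrix.toLin' (EM P) = Matrix.toLin' (EM P) * YL q y := by
  rw [YL_mul]
  refine LinearMap.ext fun v => funext fun b => ?_
  simp only [YL, Module.End.mul_apply, LinearMap.funLeft_apply, Matrix.toLin'_apply,
    Matrix.mulVec, dotProduct, EM, Matrix.of_apply]
  refine (Fintype.sum_equiv ((Equiv.mulLeft y).prodCongr (Equiv.refl (Fin q))) _ _ fun a => ?_).symm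
  obtain ⟨p', j⟩ := a
  change P b.2 j (b.1⁻¹ * p') * v (y * p', j) =
    P b.2 j ((y * b.1)⁻¹ * (y * p')) * v (y * p', j)
  congr 2
  group

theorem trace_YL (P : Mat Q q) (y : Q) :
    LinearMap.trace ℂ _ (YL q y * Matrix.toLin' (EM P)) =
      (Nat.card (Subgroup.centralizer {y⁻¹}) : ℂ) * tau (ConjClasses.mk y⁻¹) P := by
  rw [YL_mul, Matrix.trace_toLin'_eq]
  have h1 := class_sum y⁻¹ fun z => ∑ i, P i i z
  unfold tau
  rw [← h1, Matrix.trace, Fintype.sum_prod_type]
  refine Finset.sum_congr rfl fun p _ => Finset.sum_congr rfl fun i _ => ?_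
  simp only [Matrix.diag_apply, Matrix.of_apply]
  congr 1
  group

theorem centralizer_le {y : Q} {a : ℕ} (h : Nat.Coprime (orderOf y) a) :
    Nat.card (Subgroup.centralizer {(y ^ a)⁻¹}) ≤ Nat.card (Subgroup.centralizer {y}) := by
  obtain ⟨b, hb⟩ := exists_pow_eq_self_of_coprime (n := a) (x := y) h.symm
  refine Subgroup.card_le_of_le ?_
  intro c hc
  rw [Subgroup.mem_centralizer_singleton_iff] at hc ⊢
  have h1 : Commute c (y ^ a) := by
    have h2 : Commute c (y ^ a)⁻¹ := hc
    exact Commute.inv_right_iff.1 h2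
  have h3 := h1.pow_right b
  rw [hb] at h3
  exact h3

/-- **Vanishing of the traces at the generators of a cyclic subgroup of a finite group.** -/
theorem tau_zero_of_prod {P : Mat Q q} (hP : IsIdem P) (y : Q)
    (h : ∏ a ∈ (Finset.range (orderOf y)).filter (Nat.Coprime (orderOf y)),
      ((Nat.card (Subgroup.centralizer {y}) : ℝ) * ‖tau (ConjClasses.mk (y ^ a)⁻¹) P‖) < 1) :
    tau (ConjClasses.mk y) P = 0 := by
  have hn : 0 < orderOf y := orderOf_pos y
  have h1 := H38.trace_zero hn (YL q y) (Matrix.toLin' (EM P))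
    (by
      rw [YL_pow, pow_orderOf_eq_one]
      ext v a
      simp [YL, LinearMap.funLeft_apply])
    (by
      rw [Module.End.mul_eq_comp, ← Matrix.toLin'_mul, EM_idem hP])
    (YL_comm P y)
    (by
      refine lt_of_le_of_lt (Finset.prod_le_prod (fun _ _ => norm_nonneg _) fun a ha => ?_) h
      rw [YL_pow, trace_YL, norm_mul, Complex.norm_natCast]
      refine mul_le_mul_of_nonneg_right ?_ (norm_nonneg _)
      exact_mod_cast centralizer_le (Finset.mem_filter.1 ha).2)
    (orderOf y - 1) (by omega) (by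
      rcases Nat.lt_or_ge 1 (orderOf y) with h2 | h2
      · exact (Nat.coprime_self_sub_right (by omega)).2 (Nat.coprime_one_right _)
      · have h3 : orderOf y = 1 := by omega
        rw [h3]
        simp)
  rw [YL_pow, trace_YL] at h1
  have h4 : (y ^ (orderOf y - 1))⁻¹ = y := by
    rw [inv_eq_iff_mul_eq_one, ← pow_succ, Nat.sub_add_cancel hn, pow_orderOf_eq_one]
  rw [h4] at h1
  refine (mul_eq_zero.1 h1).resolve_left ?_
  have : 0 < Nat.card (Subgroup.centralizer {y}) := Nat.card_pos
  exact_mod_cast this.ne'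

/-- The number of generators conjugate to a given element. -/
theorem card_near (y z : Q) [DecidableRel (IsConj (α := Q))] :
    ((Finset.range (orderOf y)).filter fun a => Nat.Coprime (orderOf y) a ∧
      IsConj z (y ^ a)⁻¹).card ≤
      ((Finset.range (orderOf y)).filter fun a => Nat.Coprime (orderOf y) a ∧
        IsConj y (y ^ a)).card := by
  have hn : 0 < orderOf y := orderOf_pos y
  by_cases h : ∃ b, Nat.Coprime (orderOf y) b ∧ IsConj z (y ^ b)⁻¹
  · obtain ⟨b, hb, hz⟩ := h
    obtain ⟨b', hb'⟩ := exists_pow_eq_self_of_coprime (n := b) (x := y) hb.symm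
    have hb2 : y ^ (b * b') = y := by rw [pow_mul, hb']
    have hb3 : Nat.Coprime (orderOf y) b' := by
      have h1 : b * b' ≡ 1 [MOD orderOf y] := by
        rw [← pow_eq_pow_iff_modEq, hb2, pow_one]
      have h2 : Nat.Coprime (orderOf y) (b * b') := by
        have := h1.gcd_eq
        rw [Nat.gcd_one_left] at this
        rw [Nat.Coprime, Nat.gcd_comm]
        exact this
      exact Nat.Coprime.coprime_mul_left_right h2
    refine Finset.card_le_card_of_injOn (fun a => (a * b') % orderOf y) (fun a ha => ?_)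
      fun a ha a' ha' he => ?_
    · rw [Finset.mem_coe, Finset.mem_filter] at ha ⊢
      obtain ⟨-, ha1, ha2⟩ := ha
      refine ⟨Finset.mem_range.2 (Nat.mod_lt _ hn), ?_, ?_⟩
      · have h1 := (Nat.mod_modEq (a * b') (orderOf y)).gcd_eq
        rw [Nat.Coprime, Nat.gcd_comm]
        change ((a * b') % orderOf y).gcd (orderOf y) = 1
        rw [h1, Nat.gcd_comm]
        exact Nat.Coprime.mul_right ha1 hb3
      · rw [pow_mod_orderOf]
        have h3 : IsConj (y ^ b) (y ^ a) := by
          have h4 := hz.symm.trans ha2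
          obtain ⟨c, hc⟩ := isConj_iff.1 h4
          rw [isConj_iff]
          refine ⟨c, ?_⟩
          have := congrArg (·⁻¹) hc
          simpa [mul_assoc] using this
        have h5 := h3.pow b'
        rw [← pow_mul, ← pow_mul, hb2] at h5
        exact h5
    · rw [Finset.mem_coe, Finset.mem_filter, Finset.mem_range] at ha ha'
      have h1 : a * b' ≡ a' * b' [MOD orderOf y] := he
      have h2 : a ≡ a' [MOD orderOf y] := Nat.ModEq.cancel_right_of_coprime hb3 h1
      exact Nat.ModEq.eq_of_lt_of_lt h2 ha.1 ha'.1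
  · have h1 : ((Finset.range (orderOf y)).filter fun a => Nat.Coprime (orderOf y) a ∧
        IsConj z (y ^ a)⁻¹) = ∅ :=
      Finset.filter_eq_empty_iff.2 fun a _ ha => h ⟨a, ha⟩
    rw [h1, Finset.card_empty]
    exact Nat.zero_le _

end fin

end Vale.Agent.P184.H115
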